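import Claimed.Agent.R252.S4Z.Defs
import Claimed.Agent.R252.S4C.ChainContract
import Claimed.Agent.R252.S4.Win
import Claimed.Agent.R252.S2b.CropGen
import Claimed.Agent.R252.Base.Hub2

/-!
# ROW 252 (S0492), unit S4Z (helper269, sub-block of `KpHubWin`), file 2: FRAMES, ANGULAR CEILING, MAJOR FULLNESS AT A PARENT.      CONTRACT file: the `sorry`s are the leaves L-252-S4Z-*; prove IN PLACE, statements verbatim.

Paper: 04 l.572-612.   `c : K4cCh v E` chain from the ancestor `E` (root of the path) to the parent problem `F = c.last`;  `x = ∑ nar i` its cumulative narrowness.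
EXITS (consumer: helper79, fields `fr_inv, fr_bd, fr_one, ang, major` of `KpWin.Ok`, with `W.fr k := c.k4zO p k`, `W.fri k := c.k4zOi p k`):
* (Z1) `k4z_O_inv`, `k4z_O_bd`, `k4z_O_one`;
* (Z2) `k4z_ang` (`0 < ell`, `2 u < x`, `u ≤ η E.L`),  `k4z_ang0` (`ell = 0`);
* (Z3) `k4z_major`: for EVERY atlas `Y'` of `F` the labels with a deficient major row have power small mass;      `k4z_axis`: the same for the cumulative largest scale;
* (Z4) `k4z_root`: the worlds of `F` in which the major velocity is not a `N^α`-Lipschitz function of the velocity in `E` have power small mass.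
THE MATHEMATICS.  `D_A = c.k4zD k d`, `q_A = c.k4zQ k`: `V_E = y₁ + D_A V_F / q_A` (`k4c_ch_vel`, `k4z_node`), `‖D_A‖ ≤ K q_A`, `|det D_A| = q_A² N^{-x}`.   `D_A = U diag(σ) O` (`O = k4zFr D_A`), `σ 0 ≤ 2 K q_A`, `σ 1 ≤ √(2 |det D_A|) = q_A N^{-x/2}`
(NO fullness is needed for this).   So a bin of mesh `N^{-u}` of `(O V_F) 0` lies in a ball of radius `3 K N^{-u}` of `V_E` as soon as `u < x / 2`: the angular cap of `E` passes to `F` (chain of transported labels + one same-level cover).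
A deficient major row of `O D_s` makes `D_A D_s = U diag(σ) (O D_s)` deficient: contradiction with L2.12 (`kb_axis`) in `E` for the lifted atlas.
-/

set_option autoImplicit false
set_option linter.unusedVariables false

namespace Claimed.Agent.R252

open MeasureTheory Filter Topology
open Claimed.Agent.R255 (uf)
open scoped ENNReal BigOperators

noncomputable section

/-! ## A. Planar linear algebra (paper-free, `Fin 2`) -/

theorem k4z_spec (D : Matrix (Fin 2) (Fin 2) ℝ) (hD : D.det ≠ 0) :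
    k4zU D * (k4zU D).transpose = 1 ∧ 0 < k4zSig D 1 ∧ k4zSig D 1 ≤ k4zSig D 0 ∧ k4zSig D 0 * k4zSig D 1 = 2 * |D.det| ∧ k4zSig D 0 ≤ 2 * kbMn D ∧ kbMn D ≤ 2 * k4zSig D 0 ∧
      ∀ z : Fin 2 → ℝ, (∀ i, |z i| ≤ 1) → ∀ i, |((k4zU D).transpose.mulVec (D.mulVec z)) i| ≤ k4zSig D i := by
  unfold k4zU k4zSig
  rw [dif_pos hD, dif_pos hD]
  exact (k4c_rect D hD).choose_spec.choose_spec

theorem k4z_a1_mn2 (A : Matrix (Fin 2) (Fin 2) ℝ) : kbMn A = |A 0 0| + |A 0 1| + (|A 1 0| + |A 1 1|) := by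
  simp [kbMn, Fin.sum_univ_two]

theorem k4z_a1_sig_pos (D : Matrix (Fin 2) (Fin 2) ℝ) (hD : D.det ≠ 0) (i : Fin 2) : 0 < k4zSig D i := by
  obtain ⟨-, h2, h3, -⟩ := k4z_spec D hD
  fin_cases i
  · exact lt_of_lt_of_le h2 h3
  · exact h2

theorem k4z_a1_SS (D : Matrix (Fin 2) (Fin 2) ℝ) (hD : D.det ≠ 0) : Matrix.diagonal (k4zSig D) * Matrix.diagonal (fun i => (k4zSig D i)⁻¹) = 1 := by
  rw [Matrix.diagonal_mul_diagonal, ← Matrix.diagonal_one]
  congr 1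
  funext i
  exact mul_inv_cancel₀ (k4z_a1_sig_pos D hD i).ne'

theorem k4z_a1_one_row (i : Fin 2) : ∑ l, |(1 : Matrix (Fin 2) (Fin 2) ℝ) i l| ≤ 1 := by
  rw [Fin.sum_univ_two]
  fin_cases i
  · show |(1 : Matrix (Fin 2) (Fin 2) ℝ) 0 0| + |(1 : Matrix (Fin 2) (Fin 2) ℝ) 0 1| ≤ 1
    simp
  · show |(1 : Matrix (Fin 2) (Fin 2) ℝ) 1 0| + |(1 : Matrix (Fin 2) (Fin 2) ℝ) 1 1| ≤ 1
    simp

/-- the inverse of a `2 × 2` matrix of determinant `± 1/2` -/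
theorem k4z_a1_inv_le {A B : Matrix (Fin 2) (Fin 2) ℝ} (h : A * B = 1) (hd : |A.det| = 1 / 2) : kbMn B = 2 * kbMn A := by
  have hB : B = A⁻¹ := (Matrix.inv_eq_right_inv h).symm
  have hinv : |(A.det)⁻¹| = 2 := by
    rw [abs_inv, hd]
    norm_num
  rw [hB, Matrix.inv_def, Ring.inverse_eq_inv', Matrix.adjugate_fin_two, k4z_a1_mn2, k4z_a1_mn2]
  simp only [Matrix.smul_apply, Matrix.of_apply, Matrix.cons_val', Matrix.cons_val_zero, Matrix.cons_val_one, Matrix.cons_val_fin_one, smul_eq_mul, abs_mul, abs_neg, hinv]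
  ring

/-- **LEAF L-252-S4Z-A1** (~220 l. for the block A1).  `Uᵀ U = 1` (`Matrix.mul_eq_one_comm`), `D * D⁻¹ = 1` (`Matrix.mul_nonsing_inv`, `isUnit_iff_ne_zero`), `diagonal σ⁻¹ * diagonal σ = 1`. -/
theorem k4z_fr2_inv (D : Matrix (Fin 2) (Fin 2) ℝ) : k4zFr2 D * k4zFri2 D = 1 := by
  unfold k4zFr2 k4zFri2
  by_cases hD : D.det ≠ 0
  · rw [if_pos hD, if_pos hD]
    have h1 := (k4z_spec D hD).1
    have h1' : (k4zU D).transpose * k4zU D = 1 := mul_eq_one_comm.1 h1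
    have hDD : D * D⁻¹ = 1 := Matrix.mul_nonsing_inv D (isUnit_iff_ne_zero.2 hD)
    have hSS' : Matrix.diagonal (fun i => (k4zSig D i)⁻¹) * Matrix.diagonal (k4zSig D) = 1 := mul_eq_one_comm.1 (k4z_a1_SS D hD)
    calc Matrix.diagonal (fun i => (k4zSig D i)⁻¹) * (k4zU D).transpose * D * (D⁻¹ * k4zU D * Matrix.diagonal (k4zSig D))
        = Matrix.diagonal (fun i => (k4zSig D i)⁻¹) * (k4zU D).transpose * (D * D⁻¹) * k4zU D * Matrix.diagonal (k4zSig D) := by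
          simp only [Matrix.mul_assoc]
      _ = Matrix.diagonal (fun i => (k4zSig D i)⁻¹) * ((k4zU D).transpose * k4zU D) * Matrix.diagonal (k4zSig D) := by
          rw [hDD, Matrix.mul_one]
          simp only [Matrix.mul_assoc]
      _ = 1 := by rw [h1', Matrix.mul_one, hSS']
  · rw [if_neg hD, if_neg hD, Matrix.one_mul]

/-- A1 -/
theorem k4z_fr2_fac (D : Matrix (Fin 2) (Fin 2) ℝ) (hD : D.det ≠ 0) : k4zU D * Matrix.diagonal (k4zSig D) * k4zFr2 D = D := by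
  unfold k4zFr2
  rw [if_pos hD]
  have h1 := (k4z_spec D hD).1
  calc k4zU D * Matrix.diagonal (k4zSig D) * (Matrix.diagonal (fun i => (k4zSig D i)⁻¹) * (k4zU D).transpose * D)
      = k4zU D * (Matrix.diagonal (k4zSig D) * Matrix.diagonal (fun i => (k4zSig D i)⁻¹)) * (k4zU D).transpose * D := by
        simp only [Matrix.mul_assoc]
    _ = D := by rw [k4z_a1_SS D hD, Matrix.mul_one, h1, Matrix.one_mul]

/-- A1.  The rows of an orthogonal matrix have Euclidean length one (diagonal entries of `U Uᵀ = 1`); for `det D = 0` the matrix is `1`. -/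
theorem k4z_U_le (D : Matrix (Fin 2) (Fin 2) ℝ) (i l : Fin 2) : |k4zU D i l| ≤ 1 := by
  have h : k4zU D * (k4zU D).transpose = 1 := by
    by_cases hD : D.det ≠ 0
    · exact (k4z_spec D hD).1
    · unfold k4zU
      rw [dif_neg hD, Matrix.transpose_one, Matrix.one_mul]
  have h1 : (k4zU D * (k4zU D).transpose) i i = 1 := by rw [h]; simp
  rw [Matrix.mul_apply, Fin.sum_univ_two] at h1
  simp only [Matrix.transpose_apply] at h1
  rw [abs_le_one_iff_mul_self_le_one]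
  fin_cases l
  · show k4zU D i 0 * k4zU D i 0 ≤ 1
    nlinarith [mul_self_nonneg (k4zU D i 1)]
  · show k4zU D i 1 * k4zU D i 1 ≤ 1
    nlinarith [mul_self_nonneg (k4zU D i 0)]

/-- A1.  Take `z l := sign ((Uᵀ D) i l)` in the last clause of `k4z_spec`. -/
theorem k4z_fr2_row (D : Matrix (Fin 2) (Fin 2) ℝ) (i : Fin 2) : ∑ l, |k4zFr2 D i l| ≤ 1 := by
  by_cases hD : D.det ≠ 0
  · have h7 := (k4z_spec D hD).2.2.2.2.2.2
    have hfr : k4zFr2 D = Matrix.diagonal (fun i => (k4zSig D i)⁻¹) * (k4zU D).transpose * D := by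
      unfold k4zFr2
      rw [if_pos hD]
    set fr := k4zFr2 D with hfr0
    set z : Fin 2 → ℝ := fun l => if 0 ≤ fr i l then 1 else -1 with hz
    have hz1 : ∀ l, |z l| ≤ 1 := by
      intro l
      simp only [hz]
      split_ifs <;> simp
    have hz2 : ∀ l, fr i l * z l = |fr i l| := by
      intro l
      simp only [hz]
      split_ifs with hl
      · rw [mul_one, abs_of_nonneg hl]
      · rw [mul_neg, mul_one, abs_of_neg (not_le.1 hl)]
    have e1 : (fr.mulVec z) i = ∑ l, |fr i l| := by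
      rw [Matrix.mulVec, dotProduct]
      exact Finset.sum_congr rfl fun l _ => hz2 l
    have e2 : (fr.mulVec z) i = (k4zSig D i)⁻¹ * ((k4zU D).transpose.mulVec (D.mulVec z)) i := by
      rw [hfr, ← Matrix.mulVec_mulVec, ← Matrix.mulVec_mulVec, Matrix.mulVec_diagonal]
    have hi0 : 0 < k4zSig D i := k4z_a1_sig_pos D hD i
    have e3 := h7 z hz1 i
    rw [← e1, e2]
    calc (k4zSig D i)⁻¹ * ((k4zU D).transpose.mulVec (D.mulVec z)) i ≤ (k4zSig D i)⁻¹ * k4zSig D i :=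
          mul_le_mul_of_nonneg_left ((le_abs_self _).trans e3) (inv_pos.2 hi0).le
      _ = 1 := inv_mul_cancel₀ hi0.ne'
  · unfold k4zFr2
    rw [if_neg hD]
    exact k4z_a1_one_row i

/-- A1 -/
theorem k4z_fr2_le (D : Matrix (Fin 2) (Fin 2) ℝ) : kbMn (k4zFr2 D) ≤ 2 := by
  have h0 := k4z_fr2_row D 0
  have h1 := k4z_fr2_row D 1
  rw [Fin.sum_univ_two] at h0 h1
  rw [k4z_a1_mn2]
  linarith

/-- A1.  `|det (k4zFr2 D)| = |det D| / (σ 0 σ 1) = 1/2` (`|det U| = 1`); `k4zFri2 D` is the inverse, i.e. the adjugate divided by the determinant (`Matrix.inv_eq_right_inv`, `Matrix.inv_def`, `Matrix.adjugate_fin_two`), entries `≤ 2 · 1`...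
or directly: solve the four linear equations `k4zFr2 D * k4zFri2 D = 1` by Cramer. -/
theorem k4z_fri2_le (D : Matrix (Fin 2) (Fin 2) ℝ) : kbMn (k4zFri2 D) ≤ 4 := by
  by_cases hD : D.det ≠ 0
  · obtain ⟨h1, h2, h3, h4, -⟩ := k4z_spec D hD
    have hσ0 : 0 < k4zSig D 0 := k4z_a1_sig_pos D hD 0
    have hUdet : |(k4zU D).det| = 1 := by
      have := congrArg Matrix.det h1
      rw [Matrix.det_mul, Matrix.det_transpose, Matrix.det_one] at this
      have h8 : |(k4zU D).det| * |(k4zU D).det| = 1 := by rw [← abs_mul, this, abs_one]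
      nlinarith [abs_nonneg (k4zU D).det]
    have hfrdet : |(k4zFr2 D).det| = 1 / 2 := by
      unfold k4zFr2
      rw [if_pos hD, Matrix.det_mul, Matrix.det_mul, Matrix.det_diagonal, Matrix.det_transpose, Fin.prod_univ_two, abs_mul, abs_mul, hUdet, mul_one,
        ← mul_inv, abs_inv, abs_of_pos (mul_pos hσ0 h2), h4]
      have : 0 < |D.det| := abs_pos.2 hD
      field_simp
    rw [k4z_a1_inv_le (k4z_fr2_inv D) hfrdet]
    linarith [k4z_fr2_le D]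
  · unfold k4zFri2
    rw [if_neg hD, k4z_a1_mn2]
    norm_num

theorem k4z_A2_exp (D : Matrix (Fin 2) (Fin 2) ℝ) (hD : D.det ≠ 0) (V : Fin 2 → ℝ) (i : Fin 2) :
    (D.mulVec V) i = k4zU D i 0 * k4zSig D 0 * ((k4zFr2 D).mulVec V) 0 + k4zU D i 1 * k4zSig D 1 * ((k4zFr2 D).mulVec V) 1 := by
  conv_lhs => rw [← k4z_fr2_fac D hD]
  rw [← Matrix.mulVec_mulVec]
  simp only [Matrix.mulVec, dotProduct, Fin.sum_univ_two, Matrix.mul_apply, Matrix.diagonal_apply]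
  simp

theorem k4z_A2_sig (D : Matrix (Fin 2) (Fin 2) ℝ) (hD : D.det ≠ 0) {q K ε : ℝ} (hq : 0 < q) (hε : 0 ≤ ε) (hsize : kbMn D ≤ q * K)
    (hnar : 2 * |D.det| ≤ (q * ε) ^ 2) : 0 < k4zSig D 0 ∧ k4zSig D 0 ≤ 2 * (q * K) ∧ 0 < k4zSig D 1 ∧ k4zSig D 1 ≤ q * ε := by
  obtain ⟨_, h1, h2, h3, h4, _, _⟩ := k4z_spec D hD
  refine ⟨by linarith, by linarith, h1, ?_⟩
  by_contra hcon
  push Not at hcon
  have hqe : 0 ≤ q * ε := by positivity
  nlinarith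

theorem k4z_A3_exp (D Ds : Matrix (Fin 2) (Fin 2) ℝ) (hD : D.det ≠ 0) (i l : Fin 2) :
    (D * Ds) i l = k4zU D i 0 * k4zSig D 0 * (k4zFr2 D * Ds) 0 l + k4zU D i 1 * k4zSig D 1 * (k4zFr2 D * Ds) 1 l := by
  conv_lhs => rw [← k4z_fr2_fac D hD]
  rw [Matrix.mul_assoc]
  rw [Matrix.mul_apply (M := k4zU D * Matrix.diagonal (k4zSig D)), Fin.sum_univ_two]
  simp only [Matrix.mul_diagonal]

/-- **LEAF L-252-S4Z-A2** (~90 l.).  A bin of the major coordinate lies in a small ball of the old velocity.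
PROOF.  `V' := (k4zFr2 D) V`, `D V = U diag(σ) V'` (`k4z_fr2_fac`), `|V' 1| ≤ K` (`k4z_fr2_row`), `0 ≤ V' 0 - b β < β`;   `z i := y1 i + U i 0 * σ 0 * (b β) / q`;   `σ 0 ≤ 2 q K`, `σ 1 ^ 2 ≤ σ 0 σ 1 = 2 |det D| ≤ (q β)^2`, `|U i l| ≤ 1`. -/
theorem k4z_cover2 (D : Matrix (Fin 2) (Fin 2) ℝ) (hD : D.det ≠ 0) {q K β : ℝ} (hq : 0 < q) (hK : 1 ≤ K) (hβ : 0 < β) (hsize : kbMn D ≤ q * K)
    (hnar : 2 * |D.det| ≤ (q * β) ^ 2) (y1 : Fin 2 → ℝ) (b : ℤ) :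
    ∃ z : Fin 2 → ℝ, ∀ V : Fin 2 → ℝ, (∀ i, |V i| ≤ K) → ⌊((k4zFr2 D).mulVec V) 0 / β⌋ = b → ∀ i, |(y1 + (1 / q) • D.mulVec V) i - z i| ≤ 3 * K * β := by
  obtain ⟨hs0, hs0', hs1, hs1'⟩ := k4z_A2_sig D hD hq hβ.le hsize hnar
  refine ⟨fun i => y1 i + k4zU D i 0 * k4zSig D 0 * ((b : ℝ) * β) / q, fun V hV hb i => ?_⟩
  have hK0 : 0 < K := by linarith
  obtain ⟨a0, ha0⟩ : ∃ a0, a0 = ((k4zFr2 D).mulVec V) 0 := ⟨_, rfl⟩
  obtain ⟨a1, ha1⟩ : ∃ a1, a1 = ((k4zFr2 D).mulVec V) 1 := ⟨_, rfl⟩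
  have hfl : 0 ≤ a0 - (b : ℝ) * β ∧ a0 - (b : ℝ) * β ≤ β := by
    rw [← ha0, Int.floor_eq_iff, le_div_iff₀ hβ, div_lt_iff₀ hβ] at hb
    constructor <;> nlinarith [hb.1, hb.2]
  have ha1K : |a1| ≤ K := by
    have hrow := k4z_fr2_row D 1
    rw [Fin.sum_univ_two] at hrow
    rw [ha1]
    simp only [Matrix.mulVec, dotProduct, Fin.sum_univ_two]
    calc |k4zFr2 D 1 0 * V 0 + k4zFr2 D 1 1 * V 1| ≤ |k4zFr2 D 1 0| * |V 0| + |k4zFr2 D 1 1| * |V 1| := by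
          rw [← abs_mul, ← abs_mul]
          exact abs_add_le _ _
      _ ≤ |k4zFr2 D 1 0| * K + |k4zFr2 D 1 1| * K := by
          gcongr
          · exact hV 0
          · exact hV 1
      _ = (|k4zFr2 D 1 0| + |k4zFr2 D 1 1|) * K := by ring
      _ ≤ 1 * K := by gcongr
      _ = K := one_mul K
  have e : (y1 + (1 / q) • D.mulVec V) i - (y1 i + k4zU D i 0 * k4zSig D 0 * ((b : ℝ) * β) / q) =
      (k4zU D i 0 * (k4zSig D 0 * (a0 - (b : ℝ) * β)) + k4zU D i 1 * (k4zSig D 1 * a1)) / q := by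
    simp only [Pi.add_apply, Pi.smul_apply, smul_eq_mul]
    rw [k4z_A2_exp D hD V i, ← ha0, ← ha1]
    field_simp
    ring
  beta_reduce
  rw [e, abs_div, abs_of_pos hq, div_le_iff₀ hq]
  have hU0 := k4z_U_le D i 0
  have hU1 := k4z_U_le D i 1
  calc |k4zU D i 0 * (k4zSig D 0 * (a0 - (b : ℝ) * β)) + k4zU D i 1 * (k4zSig D 1 * a1)|
      ≤ |k4zU D i 0| * (k4zSig D 0 * |a0 - (b : ℝ) * β|) + |k4zU D i 1| * (k4zSig D 1 * |a1|) := by
        refine (abs_add_le _ _).trans (le_of_eq ?_)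
        rw [abs_mul, abs_mul, abs_mul, abs_mul, abs_of_pos hs0, abs_of_pos hs1]
    _ ≤ 1 * ((2 * (q * K)) * β) + 1 * ((q * β) * K) := by
        have : |a0 - (b : ℝ) * β| ≤ β := by rw [abs_of_nonneg hfl.1]; exact hfl.2
        gcongr
    _ = 3 * K * β * q := by ring

/-- **LEAF L-252-S4Z-A3** (~90 l.).  A deficient major row makes the product deficient.
PROOF.  `M := k4zFr2 D * Ds`, `D * Ds = U diag(σ) M`, `|(D Ds) i l| ≤ σ 0 |M 0 l| + σ 1 |M 1 l|`, `∑_l |M 1 l| ≤ kbMn Ds` (`|k4zFr2 D 1 j| ≤ 1`), `σ 0 ≤ 2 q K`, `σ 1 ≤ q ε`. -/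
theorem k4z_def2 (D Ds : Matrix (Fin 2) (Fin 2) ℝ) (hD : D.det ≠ 0) {q qs K ε : ℝ} (hq : 0 < q) (hqs : 0 ≤ qs) (hK : 1 ≤ K) (hε : 0 ≤ ε) (hsize : kbMn D ≤ q * K)
    (hnar : 2 * |D.det| ≤ (q * ε) ^ 2) (hDs : kbMn Ds ≤ qs * K) (hrow : ∑ l, |(k4zFr2 D * Ds) 0 l| ≤ ε * qs) : kbMn (D * Ds) ≤ 6 * K * ε * (q * qs) := by
  obtain ⟨hs0, hs0', hs1, hs1'⟩ := k4z_A2_sig D hD hq hε hsize hnar
  have hK0 : 0 < K := by linarith
  have hO : ∀ j, |k4zFr2 D 1 j| ≤ 1 := by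
    intro j
    have hrow1 := k4z_fr2_row D 1
    exact (Finset.single_le_sum (f := fun l => |k4zFr2 D 1 l|) (fun _ _ => abs_nonneg _) (Finset.mem_univ j)).trans hrow1
  have hM1 : ∑ l, |(k4zFr2 D * Ds) 1 l| ≤ qs * K := by
    refine le_trans ?_ hDs
    unfold kbMn
    simp only [Fin.sum_univ_two, Matrix.mul_apply]
    have a00 := abs_nonneg (Ds 0 0)
    have a01 := abs_nonneg (Ds 0 1)
    have a10 := abs_nonneg (Ds 1 0)
    have a11 := abs_nonneg (Ds 1 1)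
    have t0 : |k4zFr2 D 1 0 * Ds 0 0 + k4zFr2 D 1 1 * Ds 1 0| ≤ |Ds 0 0| + |Ds 1 0| := by
      refine (abs_add_le _ _).trans ?_
      rw [abs_mul, abs_mul]
      nlinarith [hO 0, hO 1]
    have t1 : |k4zFr2 D 1 0 * Ds 0 1 + k4zFr2 D 1 1 * Ds 1 1| ≤ |Ds 0 1| + |Ds 1 1| := by
      refine (abs_add_le _ _).trans ?_
      rw [abs_mul, abs_mul]
      nlinarith [hO 0, hO 1]
    linarith
  have hent : ∀ i l, |(D * Ds) i l| ≤ k4zSig D 0 * |(k4zFr2 D * Ds) 0 l| + k4zSig D 1 * |(k4zFr2 D * Ds) 1 l| := by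
    intro i l
    rw [k4z_A3_exp D Ds hD i l]
    refine (abs_add_le _ _).trans ?_
    rw [abs_mul, abs_mul, abs_mul, abs_mul, abs_of_pos hs0, abs_of_pos hs1]
    have hU0 := k4z_U_le D i 0
    have hU1 := k4z_U_le D i 1
    have b0 : 0 ≤ k4zSig D 0 * |(k4zFr2 D * Ds) 0 l| := by positivity
    have b1 : 0 ≤ k4zSig D 1 * |(k4zFr2 D * Ds) 1 l| := by positivity
    nlinarith
  have hM0nn : 0 ≤ ∑ l, |(k4zFr2 D * Ds) 0 l| := Finset.sum_nonneg fun _ _ => abs_nonneg _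
  have hM1nn : 0 ≤ ∑ l, |(k4zFr2 D * Ds) 1 l| := Finset.sum_nonneg fun _ _ => abs_nonneg _
  calc kbMn (D * Ds) = ∑ i, ∑ l, |(D * Ds) i l| := rfl
    _ ≤ ∑ _i : Fin 2, ∑ l, (k4zSig D 0 * |(k4zFr2 D * Ds) 0 l| + k4zSig D 1 * |(k4zFr2 D * Ds) 1 l|) :=
        Finset.sum_le_sum fun i _ => Finset.sum_le_sum fun l _ => hent i l
    _ = 2 * (k4zSig D 0 * ∑ l, |(k4zFr2 D * Ds) 0 l| + k4zSig D 1 * ∑ l, |(k4zFr2 D * Ds) 1 l|) := by
        rw [Finset.sum_const, Finset.card_univ, Fintype.card_fin, Finset.sum_add_distrib, ← Finset.mul_sum, ← Finset.mul_sum,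
          nsmul_eq_mul]
        norm_num
    _ ≤ 2 * ((2 * (q * K)) * (ε * qs) + (q * ε) * (qs * K)) := by gcongr
    _ = _ := by ring

/-- **LEAF L-252-S4Z-A4** (~50 l.).  `k4zFr2 D * Di = diag(σ)⁻¹ Uᵀ`, its row `0` has `ℓ¹` norm `≤ 2 / σ 0`, and `kbMn D ≤ 2 σ 0`.   (`det D ≠ 0` from `h`: `Matrix.det_mul`.) -/
theorem k4z_row2 (D Di : Matrix (Fin 2) (Fin 2) ℝ) (h : D * Di = 1) : kbMn D * ∑ l, |(k4zFr2 D * Di) 0 l| ≤ 4 := by
  have hD : D.det ≠ 0 := by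
    intro h0
    have := congrArg Matrix.det h
    rw [Matrix.det_mul, h0, zero_mul, Matrix.det_one] at this
    exact zero_ne_one this
  obtain ⟨_, h1, h2, h3, h4, h5, _⟩ := k4z_spec D hD
  have hs0 : 0 < k4zSig D 0 := by linarith
  have e : k4zFr2 D * Di = Matrix.diagonal (fun i => (k4zSig D i)⁻¹) * (k4zU D).transpose := by
    unfold k4zFr2
    rw [if_pos hD, Matrix.mul_assoc, h, Matrix.mul_one]
  have hrow : ∑ l, |(k4zFr2 D * Di) 0 l| ≤ 2 * (k4zSig D 0)⁻¹ := by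
    rw [e, Fin.sum_univ_two]
    simp only [Matrix.diagonal_mul, Matrix.transpose_apply]
    rw [abs_mul, abs_mul, abs_of_pos (inv_pos.2 hs0)]
    have hU0 := k4z_U_le D 0 0
    have hU1 := k4z_U_le D 1 0
    have : 0 < (k4zSig D 0)⁻¹ := inv_pos.2 hs0
    nlinarith
  have hnn : 0 ≤ ∑ l, |(k4zFr2 D * Di) 0 l| := Finset.sum_nonneg fun _ _ => abs_nonneg _
  calc kbMn D * ∑ l, |(k4zFr2 D * Di) 0 l| ≤ (2 * k4zSig D 0) * (2 * (k4zSig D 0)⁻¹) := by gcongr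
    _ = 4 := by field_simp; norm_num

variable {v : KbVer}

/-- A1 (`cases v`; `k4zFr (v := .two) D = k4zFr2 D` by `rfl`) -/
theorem k4z_fr_inv (D : Matrix (Fin v.j) (Fin v.j) ℝ) : k4zFr D * k4zFri D = 1 := by
  cases v
  · exact Matrix.one_mul 1
  · exact k4z_fr2_inv D

/-- A1 (`kbMn (1 : Matrix (Fin 1) (Fin 1) ℝ) = 1`) -/
theorem k4z_fr_le (D : Matrix (Fin v.j) (Fin v.j) ℝ) : kbMn (k4zFr D) ≤ 2 ∧ kbMn (k4zFri D) ≤ 4 := by
  cases v
  · have h : kbMn (1 : Matrix (Fin 1) (Fin 1) ℝ) = 1 := by simp [kbMn]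
    constructor
    · show kbMn (1 : Matrix (Fin 1) (Fin 1) ℝ) ≤ 2
      rw [h]; norm_num
    · show kbMn (1 : Matrix (Fin 1) (Fin 1) ℝ) ≤ 4
      rw [h]; norm_num
  · exact ⟨k4z_fr2_le D, k4z_fri2_le D⟩

/-! ## B. Structure of a chain at one sample (inductions on `c`; after `cases` everything reduces by `rfl` / `simp only [K4cCh.k4zD, ..]`) -/

section

variable {E : KbEx v} (c : K4cCh v E) (k : ℕ)

/-- **LEAF L-252-S4Z-B1** (~150 l. for the block B1) -/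
theorem k4z_last_R : c.last.R = E.R := by
  induction c with
  | nil E => rfl
  | cons E Y r t ih => exact ih

/-- B1 -/
theorem k4z_last_L : c.last.L = E.L - c.k4zDp := by
  induction c with
  | nil E => simp [K4cCh.last, K4cCh.k4zDp]
  | cons E Y r t ih =>
    show t.last.L = E.L - (r + t.k4zDp)
    rw [ih]
    show E.L - r - t.k4zDp = _
    ring

/-- B1.  The cumulative matrix is the matrix of the last node.   Induction on `c` generalizing `m`; `cons _ Y _ t`: `m = 0` forces `t = nil` (`cases t`), `m = m' + 1`: chart of `lift`, `k4c_ch_lab_wd`, `k2n_s5_lift_q`. -/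
theorem k4z_node (m : ℕ) (hm : m + 1 = c.len) (d : (c.last.P k).W) : ((c.sys m k).ch (c.lab k m d)).D = c.k4zD k d ∧ (c.sys m k).q = c.k4zQ k := by
  induction c generalizing m with
  | nil E => exact absurd hm (by simp [K4cCh.len])
  | cons E Y r t ih =>
    cases m with
    | zero =>
      cases t with
      | nil _ =>
        constructor
        · show ((Y k).ch d).D = ((Y k).ch d).D * 1
          rw [mul_one]
        · show (Y k).q = (Y k).q * 1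
          rw [mul_one]
      | cons _ _ _ _ => exact absurd hm (by simp [K4cCh.len])
    | succ m =>
      obtain ⟨h1, h2⟩ := ih m (by simpa [K4cCh.len] using hm) d
      have hw : (t.sys m k).wd (t.lab k m d) = t.anc k d := k4c_ch_lab_wd t k m d
      constructor
      · show ((Y k).ch ((t.sys m k).wd (t.lab k m d))).D * ((t.sys m k).ch (t.lab k m d)).D = ((Y k).ch (t.anc k d)).D * t.k4zD k d
        rw [hw, h1]
      · have hq : ((Y k).lift (E.a r k) (t.sys m k)).q = (Y k).q * (t.sys m k).q := k2n_s5_lift_q (Y k) (E.a r k) (t.sys m k)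
        rw [h2] at hq
        exact hq

/-- B1.  In version 2 the hidden bins do not change along a chain (`k2n_hid_two`, `k2n_back_inc`, `k2n_a_mul`; `(E.norm Y r).a s k = E.a s k` by `rfl`). -/
theorem k4z_hid (hv : v = KbVer.two) (hc : c.WFat k) (s : ℝ) (d : (c.last.P k).W) (x : (c.last.P k).Lam × ℝ) :
    (c.last.P k).hid (c.last.a s k) d x = (E.P k).hid (E.a (c.k4zDp + s) k) (c.anc k d) (c.inc k d x) := by
  induction c generalizing s with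
  | nil E =>
    show (E.P k).hid (E.a s k) d x = (E.P k).hid (E.a (0 + s) k) d x
    rw [zero_add]
  | cons E Y r t ih =>
    have h1 := ih hc.2 s d x
    have h2 := (Y k).k2n_hid_two hv (E.a r k) (E.a (t.k4zDp + s) k) (E.k2n_a_pos r k) (t.anc k d) (hc.1.2.1.adm _) ((Y k).incOf (t.anc k d) (t.inc k d x))
    have e : (Y k).k2nBack (t.anc k d) ((Y k).incOf (t.anc k d) (t.inc k d x)) = t.inc k d x := (Y k).k2n_back_inc _ _
    rw [e, E.k2n_a_mul] at h2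
    show (t.last.P k).hid (t.last.a s k) d x = (E.P k).hid (E.a (r + t.k4zDp + s) k) ((Y k).wd (t.anc k d)) ((Y k).incOf (t.anc k d) (t.inc k d x))
    rw [h1, add_assoc, ← h2]
    rfl

/-- **LEAF L-252-S4Z-B2** (~170 l. for the block B2).  (`k2n_lift_WF`) -/
theorem k4z_lift_WF (hc : c.WFat k) (Y' : c.last.Sys) (hY' : (Y' k).WF) : (c.k4zLift Y' k).WF := by
  induction c with
  | nil E => exact hY'
  | cons E Y r t ih =>
    exact KbSys.k2n_lift_WF (Y k) (E.a r k) (t.k4zLift Y' k) hc.1.2.1 (E.k2n_a_pos r k) (ih hc.2 Y' hY')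

/-- B2 -/
theorem k4z_lift_wd (Y' : c.last.Sys) (e : (Y' k).C) : (c.k4zLift Y' k).wd (c.k4zC Y' k e) = c.anc k ((Y' k).wd e) := by
  induction c with
  | nil E => rfl
  | cons E Y r t ih => exact congrArg (Y k).wd (ih Y' e)

/-- B2 -/
theorem k4z_lift_D (Y' : c.last.Sys) (e : (Y' k).C) : ((c.k4zLift Y' k).ch (c.k4zC Y' k e)).D = c.k4zD k ((Y' k).wd e) * ((Y' k).ch e).D := by
  induction c with
  | nil E =>
    show ((Y' k).ch e).D = 1 * ((Y' k).ch e).D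
    rw [one_mul]
  | cons E Y r t ih =>
    show ((Y k).ch ((t.k4zLift Y' k).wd (t.k4zC Y' k e))).D * ((t.k4zLift Y' k).ch (t.k4zC Y' k e)).D = ((Y k).ch (t.anc k ((Y' k).wd e))).D * t.k4zD k ((Y' k).wd e) * ((Y' k).ch e).D
    rw [ih Y' e, k4z_lift_wd t k Y' e, mul_assoc]

/-- B2 (`k2n_s5_lift_q`) -/
theorem k4z_lift_q (Y' : c.last.Sys) : (c.k4zLift Y' k).q = c.k4zQ k * (Y' k).q := by
  induction c with
  | nil E =>
    show (Y' k).q = 1 * (Y' k).q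
    rw [one_mul]
  | cons E Y r t ih =>
    have hq : ((Y k).lift (E.a r k) (t.k4zLift Y' k)).q = (Y k).q * (t.k4zLift Y' k).q := k2n_s5_lift_q (Y k) (E.a r k) (t.k4zLift Y' k)
    rw [ih Y', ← mul_assoc] at hq
    exact hq

/-- B2.  Weighted masses of labels (`k2n_lift_mC`, `k2n_alg1` as in `k2n_lift_mass`, termwise). -/
theorem k4z_lift_wm (hc : c.WFat k) (Y' : c.last.Sys) (hY' : (Y' k).WF) (e : (Y' k).C) :
    (E.P k).om ((c.k4zLift Y' k).wd (c.k4zC Y' k e)) * (c.k4zLift Y' k).mC (c.k4zC Y' k e) = c.Zp k * ((c.last.P k).om ((Y' k).wd e) * (Y' k).mC e) := by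
  induction c with
  | nil E =>
    show (E.P k).om ((Y' k).wd e) * (Y' k).mC e = 1 * ((E.P k).om ((Y' k).wd e) * (Y' k).mC e)
    rw [one_mul]
  | cons E Y r t ih =>
    have h1 := ih hc.2 Y' hY' e
    have hWF := k4z_lift_WF t k hc.2 Y' hY'
    have h2 := KbSys.k2n_alg1 ((E.P k).om ((Y k).wd ((t.k4zLift Y' k).wd (t.k4zC Y' k e)))) _ _ _ _ _ hc.1.2.2.1 ((Y k).k2n_Z_ne_top hc.1.1 hc.1.2.1)
      ((Y k).k2n_lift_mC (E.a r k) (t.k4zLift Y' k) hc.1.1 hc.1.2.1 hWF (t.k4zC Y' k e))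
    have h3 : (Y k).Z * (((E.norm Y r).P k).om ((t.k4zLift Y' k).wd (t.k4zC Y' k e)) * (t.k4zLift Y' k).mC (t.k4zC Y' k e))
        = (Y k).Z * t.Zp k * ((t.last.P k).om ((Y' k).wd e) * (Y' k).mC e) := by
      rw [h1, mul_assoc]
      rfl
    exact h2.trans h3

end

/-! ## C. Sequence level tools -/

section

variable {E : KbEx v} (c : K4cCh v E) {d' S η : ℝ} {f : ℕ → ℝ → ℝ → ℝ} {r h nar : ℕ → ℝ}

theorem k4z47_Dp_nonneg (hc : c.Ok d' S η f r h nar) : 0 ≤ c.k4zDp := by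
  induction c generalizing f r h nar with
  | nil E => exact le_rfl
  | cons E Y r' t ih =>
    have h1 := ih (f := fun i => f (i + 1)) (r := fun i => r (i + 1)) (h := fun i => h (i + 1)) (nar := fun i => nar (i + 1)) hc.2
    have h2 := hc.1.r_pos
    show 0 ≤ r' + t.k4zDp
    linarith

/-- **LEAF L-252-S4Z-C1** (~200 l. for the block C1).  Induction on `c` (generalizing `f r h nar`); step = `k2n_hub_lift_atlas` (`E.IsAtlas Y r' (h 0)` from `K4cStep.sys`, `.own`, `kb_known_mono`); `0 ≤ t.k4zDp`; `k4z_last_L`. -/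
theorem k4z_lift_atlas (hc : c.Ok d' S η f r h nar) (Y' : c.last.Sys) (s h' : ℝ) (hs : 0 ≤ s) (hsL : s ≤ c.last.L) (hY' : c.last.IsAtlas Y' s h') :
    E.IsAtlas (c.k4zLift Y') (c.k4zDp + s) (∑ i ∈ Finset.range c.len, h i + h') := by
  induction c generalizing f r h nar with
  | nil E =>
    simp only [K4cCh.k4zLift, K4cCh.k4zDp, K4cCh.len, Finset.range_zero, Finset.sum_empty, zero_add]
    exact hY'
  | cons E Y r' t ih =>
    have h1 := ih (f := fun i => f (i + 1)) (r := fun i => r (i + 1)) (h := fun i => h (i + 1)) (nar := fun i => nar (i + 1)) hc.2 Y' hsL hY'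
    have h2 := k4z47_Dp_nonneg t (f := fun i => f (i + 1)) (r := fun i => r (i + 1)) (h := fun i => h (i + 1)) (nar := fun i => nar (i + 1)) hc.2
    have h3 : t.last.L = (E.L - r') - t.k4zDp := k4z_last_L t
    have hsL' : s ≤ t.last.L := hsL
    have hE := hc.1.cap.ok
    have hA : E.IsAtlas Y r' (h 0) := ⟨hc.1.sys.1, k2s_hub_known_mono E hE Y r' E.L hc.1.r_lt.le hc.1.own⟩
    have h4 := k2n_hub_lift_atlas E hE Y r' (h 0) hc.1.r_pos.le hc.1.r_lt hA (t.k4zDp + s) (by linarith) (by linarith) (t.k4zLift Y') _ h1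
    simp only [K4cCh.k4zLift, K4cCh.k4zDp, K4cCh.len]
    rw [Finset.sum_range_succ' _ t.len, add_comm _ (h 0), add_assoc, add_assoc]
    exact h4

/-- C1.  (`k2n_Z_bounds` at every step, `τ / 2` for the head and for the tail.) -/
theorem k4z_Zp_low (hc : c.Ok d' S η f r h nar) (τ : ℝ) (hτ : 0 < τ) : ∀ᶠ k in uf, 1 ≤ ENNReal.ofReal (E.R.N k ^ τ) * c.Zp k := by
  induction c generalizing f r h nar τ with
  | nil E =>
    refine Filter.Eventually.of_forall fun k => ?_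
    simp only [K4cCh.Zp, mul_one]
    rw [← ENNReal.ofReal_one]
    exact ENNReal.ofReal_le_ofReal (kb_L3_one_le_rpow E.R k hτ.le)
  | cons E Y r' t ih =>
    have h1 := ih (f := fun i => f (i + 1)) (r := fun i => r (i + 1)) (h := fun i => h (i + 1)) (nar := fun i => nar (i + 1)) hc.2 (τ / 2) (by positivity)
    have h2 := E.k2n_Z_bounds hc.1.cap.ok Y r' (h 0) hc.1.sys.1 (τ / 2) (by positivity)
    filter_upwards [h1, h2] with k a1 a2
    have a1' : 1 ≤ ENNReal.ofReal (E.R.N k ^ (τ / 2)) * t.Zp k := a1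
    simp only [K4cCh.Zp]
    have e : ENNReal.ofReal (E.R.N k ^ τ) = ENNReal.ofReal (E.R.N k ^ (τ / 2)) * ENNReal.ofReal (E.R.N k ^ (τ / 2)) := by
      rw [← ENNReal.ofReal_mul (Real.rpow_nonneg (kb_res_pos E.R k).le _), kb_rpow_half]
    calc (1 : ℝ≥0∞) = 1 * 1 := (one_mul 1).symm
      _ ≤ (ENNReal.ofReal (E.R.N k ^ (τ / 2)) * (Y k).Z) * (ENNReal.ofReal (E.R.N k ^ (τ / 2)) * t.Zp k) := mul_le_mul' a2.2.2 a1'
      _ = ENNReal.ofReal (E.R.N k ^ τ) * ((Y k).Z * t.Zp k) := by rw [e]; ring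

/-- C1.  The terminal density of the deepest problem (`k4c_step_profile` at `s = E.L - r'`; next profile = `f 1` if `t` is a `cons`, `fF` if `t = nil`; `Finset.sum_range_succ'`). -/
theorem k4z_prof (hc : c.Ok d' S η f r h nar) (hlen : 0 < c.len) (fF : ℝ → ℝ → ℝ) (hF : c.last.Cap d' S η fF) :
    fF c.last.L 0 = f 0 E.L 0 - ∑ i ∈ Finset.range c.len, f i (r i) 0 := by
  induction c generalizing f r h nar with
  | nil E => exact absurd hlen (by simp [K4cCh.len])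
  | cons E Y r' t ih =>
    have hr : r' = r 0 := hc.1.r_eq
    have hL : (0 : ℝ) ≤ E.L - r' := by linarith [hc.1.r_lt]
    by_cases ht : 0 < t.len
    · have h1 := ih (f := fun i => f (i + 1)) (r := fun i => r (i + 1)) (h := fun i => h (i + 1)) (nar := fun i => nar (i + 1)) hc.2 ht hF
      have h4 := k4c_ch_cap t (f := fun i => f (i + 1)) (r := fun i => r (i + 1)) (h := fun i => h (i + 1)) (nar := fun i => nar (i + 1)) hc.2 0 ht
      rw [k4c_prob_zero] at h4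
      have h5 := k4c_step_profile E Y d' S η (f 0) (f 1) _ _ _ r' hc.1 h4 (E.L - r') hL le_rfl
      have hL' : (E.norm Y r').L = E.L - r' := rfl
      simp only [K4cCh.last, K4cCh.len]
      rw [Finset.sum_range_succ' _ t.len, h1, hL']
      simp only [zero_add]
      rw [h5, add_sub_cancel, ← hr]
      ring
    · cases t with
      | nil _ =>
        have h5 := k4c_step_profile E Y d' S η (f 0) fF _ _ _ r' hc.1 hF (E.L - r') hL le_rfl
        have hL' : (E.norm Y r').L = E.L - r' := rfl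
        simp only [K4cCh.last, K4cCh.len, zero_add, Finset.sum_range_one]
        rw [hL', h5, add_sub_cancel, ← hr]
      | cons _ _ _ _ => exact absurd (Nat.succ_pos _) ht

theorem k4z47_J_le {q J N x τ : ℝ} (hN : 0 < N) (hJ : 0 < J) (h : N ^ (- -x - τ) ≤ q ^ 2 / J) : J ≤ q ^ 2 * N ^ (-x + τ) := by
  rw [le_div_iff₀ hJ] at h
  have h1 : N ^ (-x + τ) * N ^ (- -x - τ) = 1 := by
    rw [← Real.rpow_add hN]
    have : -x + τ + (- -x - τ) = 0 := by ring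
    rw [this, Real.rpow_zero]
  have h2 : 0 < N ^ (-x + τ) := Real.rpow_pos_of_pos hN _
  calc J = N ^ (-x + τ) * N ^ (- -x - τ) * J := by rw [h1, one_mul]
    _ = N ^ (-x + τ) * (N ^ (- -x - τ) * J) := by ring
    _ ≤ N ^ (-x + τ) * q ^ 2 := mul_le_mul_of_nonneg_left h h2.le
    _ = q ^ 2 * N ^ (-x + τ) := by ring

theorem k4z47_Q_pos (k : ℕ) : 0 < c.k4zQ k := by
  induction c with
  | nil E => exact one_pos
  | cons E Y r' t ih =>
    have hq0 : 0 < (Y k).q := by unfold KbSys.q kbQ; positivity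
    exact mul_pos hq0 ih

/-- C1.  The cumulative charts of the parents (`k4c_ch_sys`, `k4c_ch_narrow`, `k4c_ch_wfat`, `k4c_ch_WF` at the node `m = c.len - 1`, `k4z_node`; `J = |det D|`, `det ≠ 0` from `D * Di = 1`). -/
theorem k4z_par (hv : v = KbVer.two) (hc : c.Ok d' S η f r h nar) (hlen : 0 < c.len) (τ : ℝ) (hτ : 0 < τ) :
    ∀ᶠ k in uf, c.WFat k ∧ 0 < c.k4zQ k ∧ ∀ d, (c.k4zD k d).det ≠ 0 ∧ kbMn (c.k4zD k d) ≤ c.k4zQ k * E.R.N k ^ τ ∧
      |(c.k4zD k d).det| ≤ c.k4zQ k ^ 2 * E.R.N k ^ (-(∑ i ∈ Finset.range c.len, nar i) + τ) := by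
  obtain ⟨m, hm⟩ : ∃ m, m + 1 = c.len := ⟨c.len - 1, by omega⟩
  have hml : m < c.len := by omega
  have h1 := k4c_ch_sys c hc m hml
  have h2 := k4c_ch_narrow c hv hc m hml
  have h3 := k4c_ch_wfat c hc
  rw [hm] at h2
  filter_upwards [h1.2.1 τ hτ, h2 τ hτ, h3] with k a1 a2 a3
  have hW := k4c_ch_WF c k a3 m hml
  refine ⟨a3, k4z47_Q_pos c k, fun d => ?_⟩
  obtain ⟨e1, e2⟩ := k4z_node c k m hm d
  rw [← e1, ← e2]
  have hdet : ((c.sys m k).ch (c.lab k m d)).D.det ≠ 0 := by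
    intro h0
    have := congrArg Matrix.det (hW.inv (c.lab k m d))
    rw [Matrix.det_mul, h0, zero_mul, Matrix.det_one] at this
    exact zero_ne_one this
  refine ⟨hdet, a1.1.size _, ?_⟩
  exact k4z47_J_le (kb_res_pos E.R k) (abs_pos.2 hdet) (a2 (c.lab k m d)).1

/-- **LEAF L-252-S4Z-C2** (~100 l.).  Typical ceilings of transported labels along a chain.
Induction on `c` (generalizing `f r h nar ℓ f₀`).   Step: `KbEx.k2r_typUp_gen` (`S2b/CropGen`) with `ℓ' k c' x := ℓ k ((Y k).wd c') ((Y k).incOf c' x)`, `n = 1`, `Lst d _ := {d}` (`k2n_inc_back`), `e = - f 0 r' 0` (`k4c_sat_XJ`);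
`(cons ..).k4zL ℓ = t.k4zL ℓ'` by `rfl`; measurability of `ℓ'`: `k2n_inc_meas`. -/
theorem k4z_typUp_chain (hc : c.Ok d' S η f r h nar) {D : Type} [Countable D] (ℓ : E.Lab D) (hℓ : ∀ᶠ k in uf, (E.P k).LabMeas (ℓ k)) (f₀ : ℝ) (hUp : E.TypUp ℓ f₀) :
    c.last.TypUp (c.k4zL ℓ) (f₀ - ∑ i ∈ Finset.range c.len, f i (r i) 0) := by
  induction c generalizing f r h nar f₀ with
  | nil E =>
    simp only [K4cCh.len, Finset.range_zero, Finset.sum_empty, sub_zero]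
    exact hUp
  | cons E Y r' t ih =>
    have hE := hc.1.cap.ok
    have hr : r' = r 0 := hc.1.r_eq
    let ℓ' : (E.norm Y r').Lab D := fun k c' x => ℓ k ((Y k).wd c') ((Y k).incOf c' x)
    have hℓ' : ∀ᶠ k in uf, ((Y k).norm (E.a r' k)).LabMeas (ℓ' k) := by
      filter_upwards [hℓ] with k hk
      intro γ d
      exact (Y k).k2n_inc_meas γ (hk ((Y k).wd γ) d)
    have h1 : (E.norm Y r').TypUp ℓ' (f₀ + -(f 0 r' 0)) := by
      refine E.k2r_typUp_gen hE Y r' (h 0) (-(f 0 r' 0)) f₀ hc.1.sys.1 (k4c_sat_XJ E hE Y r' (h 0) _ hc.1.sys.1 hc.1.sat) ℓ ℓ' 1 hℓ hℓ' ?_ hUp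
      refine Filter.Eventually.of_forall fun k c' => ⟨fun d _ => {d}, fun d o => by simp, fun d d'' => ?_, fun x hx => ?_⟩
      · by_cases hd : d'' = d
        · simp [hd]
        · simp [hd]
      · rw [Finset.mem_singleton]
        show ℓ k ((Y k).wd c') x = ℓ k ((Y k).wd c') ((Y k).incOf c' ((Y k).k2nBack c' x))
        rw [(Y k).k2n_inc_back]
    have h2 := ih (f := fun i => f (i + 1)) (r := fun i => r (i + 1)) (h := fun i => h (i + 1)) (nar := fun i => nar (i + 1)) hc.2 ℓ' hℓ' _ h1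
    have e : f₀ - ∑ i ∈ Finset.range (K4cCh.cons E Y r' t).len, f i (r i) 0 = f₀ + -(f 0 r' 0) - ∑ i ∈ Finset.range t.len, f (i + 1) (r (i + 1)) 0 := by
      simp only [K4cCh.len]
      rw [Finset.sum_range_succ' _ t.len, ← hr]
      ring
    rw [e]
    exact h2

end

theorem k4z47_above_cover (P : KbPb v) (hP : P.WF) {D D' : Type} [Countable D] [Countable D'] (ℓ : P.Lab D) (ℓ' : P.Lab D') (hℓ : P.LabMeas ℓ) (hℓ' : P.LabMeas ℓ')
    (n : ℕ) (hi : ℝ) (hhi : 0 ≤ hi)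
    (hL : ∀ γ, ∃ Lst : D' → ℝ × KbB v → Finset D, (∀ d o, (Lst d o).card ≤ n) ∧ (∀ d d', MeasurableSet {o | d' ∈ Lst d o}) ∧
      ∀ x ∈ P.Ev γ, ℓ γ x ∈ Lst (ℓ' γ x) (P.bs γ x)) :
    P.mass (P.above ℓ' (2 * n * hi)) ≤ 2 * P.mass (P.above ℓ hi) := by
  unfold KbPb.mass
  rw [Finset.mul_sum]
  refine Finset.sum_le_sum fun γ _ => ?_
  obtain ⟨Lst, hcard, hmeas, hmem⟩ := hL γ
  have h3 := k2n_ceil (k2a_fr hP γ) (hℓ γ) (hℓ' γ) (hP.Ev_meas γ) Lst n hcard hmeas hmem (ENNReal.ofReal hi)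
  have hres : (P.mu γ).restrict (P.Ev γ) = P.mu γ := by
    unfold KbPb.mu
    rw [Measure.restrict_restrict (hP.Ev_meas γ), Set.inter_self]
  have hin : ∀ A : Set (P.Lam × ℝ), P.mu γ (P.Ev γ ∩ A) = P.mu γ A := by
    intro A
    rw [Set.inter_comm, ← Measure.restrict_apply' (hP.Ev_meas γ), hres]
  rw [hres, hin, hin] at h3
  have e1 : P.above ℓ' (2 * n * hi) γ = {x | 2 * (n * ENNReal.ofReal hi) < k2aDn volume (P.mu γ) (P.bs γ) (ℓ' γ) x} := by
    have e : ENNReal.ofReal (2 * n * hi) = 2 * (n * ENNReal.ofReal hi) := by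
      rw [mul_assoc, ENNReal.ofReal_mul (by norm_num), ENNReal.ofReal_mul (by positivity), ENNReal.ofReal_natCast]
      norm_num
    show {x | ENNReal.ofReal (2 * n * hi) < k2aDn volume (P.mu γ) (P.bs γ) (ℓ' γ) x} = _
    rw [e]
  have e2 : P.above ℓ hi γ = {x | ENNReal.ofReal hi < k2aDn volume (P.mu γ) (P.bs γ) (ℓ γ) x} := rfl
  rw [e1, e2]
  calc P.om γ * P.mu γ {x | 2 * (n * ENNReal.ofReal hi) < k2aDn volume (P.mu γ) (P.bs γ) (ℓ' γ) x}
      ≤ P.om γ * (2 * P.mu γ {x | ENNReal.ofReal hi < k2aDn volume (P.mu γ) (P.bs γ) (ℓ γ) x}) := mul_le_mul_right h3 _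
    _ = 2 * (P.om γ * P.mu γ {x | ENNReal.ofReal hi < k2aDn volume (P.mu γ) (P.bs γ) (ℓ γ) x}) := by ring

/-- **LEAF L-252-S4Z-C3** (~130 l.).  Same-level cover: ceilings pass to a label whose classes are covered by subpower many classes of the old label.
PROOF.  One sample: `P.mass (P.above ℓ' (2 * n * hi)) ≤ 2 * P.mass (P.above ℓ hi)` from `k2n_ceil` in every world with `S := P.Ev γ` (`(P.mu γ).restrict (P.Ev γ) = P.mu γ`: `Measure.restrict_restrict`, `Set.inter_self`; `P.mu γ (Ev ∩ A) = P.mu γ A`);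
`P.dn ℓ γ x = k2aDn volume (P.mu γ) (P.bs γ) (ℓ γ) x` by `rfl` (see the proof of `k2n_norm_above_gen`).   Then as in `k2n_typUp_hid`: `2 n N^{-f₀ + τ/2} ≤ N^{-f₀ + τ}`. -/
theorem k4z_typUp_cover (F : KbEx v) (hF : F.Ok) {D D' : Type} [Countable D] [Countable D'] (ℓ : F.Lab D) (ℓ' : F.Lab D')
    (hℓ : ∀ᶠ k in uf, (F.P k).LabMeas (ℓ k)) (hℓ' : ∀ᶠ k in uf, (F.P k).LabMeas (ℓ' k))
    (hL : ∀ τ : ℝ, 0 < τ → ∀ᶠ k in uf, ∃ n : ℕ, (n : ℝ) ≤ F.R.N k ^ τ ∧ ∀ γ, ∃ Lst : D' → ℝ × KbB v → Finset D, (∀ d o, (Lst d o).card ≤ n) ∧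
      (∀ d d', MeasurableSet {o | d' ∈ Lst d o}) ∧ ∀ x ∈ (F.P k).Ev γ, ℓ k γ x ∈ Lst (ℓ' k γ x) ((F.P k).bs γ x))
    (f₀ : ℝ) (hUp : F.TypUp ℓ f₀) : F.TypUp ℓ' f₀ := by
  intro τ hτ
  have hτ3 : 0 < τ / 3 := by positivity
  obtain ⟨c, hc, hpow⟩ := hUp (τ / 3) hτ3
  obtain ⟨_, ⟨M0, hP⟩, _⟩ := hF
  refine ⟨c / 2, by positivity, ?_⟩
  filter_upwards [hpow, hP, hℓ, hℓ', hL (τ / 3) hτ3, (kb_rpow_tendsto F.R hτ3).eventually_ge_atTop 2,
    (kb_rpow_tendsto F.R (show 0 < c / 2 by positivity)).eventually_ge_atTop 2] with k h1 h0 h7 h8 h9 h6 h5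
  obtain ⟨n, hn, hLst⟩ := h9
  have hN0 := kb_res_pos F.R k
  have key := k4z47_above_cover (F.P k) h0.1 (ℓ k) (ℓ' k) h7 h8 n (F.R.N k ^ (-f₀ + τ / 3)) (Real.rpow_nonneg hN0.le _) hLst
  have e1 : 2 * (n : ℝ) * F.R.N k ^ (-f₀ + τ / 3) ≤ F.R.N k ^ (-f₀ + τ) := by
    have e2 : F.R.N k ^ (-f₀ + τ) = F.R.N k ^ (τ / 3) * F.R.N k ^ (τ / 3) * F.R.N k ^ (-f₀ + τ / 3) := by
      rw [← Real.rpow_add hN0, ← Real.rpow_add hN0]
      congr 1
      ring
    rw [e2]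
    have p3 := Real.rpow_pos_of_pos hN0 (-f₀ + τ / 3)
    have p2 := Real.rpow_pos_of_pos hN0 (τ / 3)
    have hn0 : (0 : ℝ) ≤ n := Nat.cast_nonneg n
    gcongr
  have m1 : (F.P k).mass ((F.P k).above (ℓ k) (F.R.N k ^ (-f₀ + τ / 3))) ≤ ENNReal.ofReal (F.R.N k ^ (-c)) :=
    (ENNReal.le_ofReal_iff_toReal_le (k2n_s1_mass_ne_top h0.1 _) (Real.rpow_nonneg hN0.le _)).2 h1
  refine ENNReal.toReal_le_of_le_ofReal (Real.rpow_nonneg hN0.le _) ?_
  calc (F.P k).mass ((F.P k).above (ℓ' k) (F.R.N k ^ (-f₀ + τ)))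
      ≤ (F.P k).mass ((F.P k).above (ℓ' k) (2 * (n : ℝ) * F.R.N k ^ (-f₀ + τ / 3))) :=
        k2a_mass_mono fun γ x hx => lt_of_le_of_lt (ENNReal.ofReal_le_ofReal e1) hx
    _ ≤ 2 * (F.P k).mass ((F.P k).above (ℓ k) (F.R.N k ^ (-f₀ + τ / 3))) := key
    _ ≤ 2 * ENNReal.ofReal (F.R.N k ^ (-c)) := mul_le_mul_right m1 _
    _ = ENNReal.ofReal (2 * F.R.N k ^ (-c)) := by rw [ENNReal.ofReal_mul zero_le_two, ENNReal.ofReal_ofNat]
    _ ≤ ENNReal.ofReal (F.R.N k ^ (-(c / 2))) := by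
        refine ENNReal.ofReal_le_ofReal ?_
        have e3 : F.R.N k ^ (-(c / 2)) = F.R.N k ^ (c / 2) * F.R.N k ^ (-c) := by
          rw [← Real.rpow_add hN0]
          congr 1
          ring
        rw [e3]
        exact mul_le_mul_of_nonneg_right h5 (Real.rpow_nonneg hN0.le _)

/-- C4.  `Ev γ ⊆ Sp γ × [0,1]` and `{t = 1}` is a null set of `nu × tm`. -/
theorem k4z_triv_mass (P : KbPb v) (hP : P.WF) (γ : P.W) : P.k4zTriv.mC γ = P.mu γ Set.univ := by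
  have e1 : P.k4zTriv.mC γ = P.mu γ (P.Ev γ ∩ P.Sp γ ×ˢ kbI 0 0) := rfl
  rw [e1]
  refine le_antisymm (measure_mono (Set.subset_univ _)) ?_
  have hnull : P.mu γ (P.Ev γ ∩ P.Sp γ ×ˢ kbI 0 0)ᶜ = 0 := by
    rw [KbPb.mu, Measure.restrict_apply' (hP.Ev_meas γ)]
    have hsub : (P.Ev γ ∩ P.Sp γ ×ˢ kbI 0 0)ᶜ ∩ P.Ev γ ⊆ Set.univ ×ˢ {(1 : ℝ)} := by
      rintro x ⟨hx1, hx2⟩
      refine ⟨Set.mem_univ _, ?_⟩
      have h3 := hP.Ev_sub γ hx2
      by_contra hne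
      refine hx1 ⟨hx2, h3.1, ?_⟩
      have h4 : x.2 ≠ 1 := hne
      simp only [kbI, kbQ, Set.mem_Ico]
      norm_num
      exact ⟨h3.2.1, lt_of_le_of_ne h3.2.2 h4⟩
    refine measure_mono_null hsub ?_
    rw [Measure.prod_prod]
    have : KbPb.tm {(1 : ℝ)} = 0 := by
      rw [KbPb.tm]
      exact le_antisymm ((Measure.restrict_le_self _).trans (by simp)) zero_le
    rw [this, mul_zero]
  calc P.mu γ Set.univ ≤ P.mu γ (P.Ev γ ∩ P.Sp γ ×ˢ kbI 0 0) + P.mu γ (P.Ev γ ∩ P.Sp γ ×ˢ kbI 0 0)ᶜ := by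
        rw [← Set.union_compl_self (P.Ev γ ∩ P.Sp γ ×ˢ kbI 0 0)]
        exact measure_union_le _ _
    _ = _ := by rw [hnull, add_zero]

theorem k4z_triv_q (P : KbPb v) : P.k4zTriv.q = 1 := by
  have : P.k4zTriv.q = kbQ 0 := rfl
  rw [this, kbQ, pow_zero]

theorem k4z_triv_I (P : KbPb v) (c : P.k4zTriv.C) : P.k4zTriv.I c ⊆ Set.Icc (0 : ℝ) 1 := by
  have e : P.k4zTriv.I c = kbI 0 0 := rfl
  rw [e]
  intro t ht
  simp only [kbI, kbQ, Set.mem_Ico] at ht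
  norm_num at ht
  exact ⟨ht.1, ht.2.le⟩

theorem k4z_triv_wf (P : KbPb v) (hP : P.WF) : P.k4zTriv.WF where
  iv_lt := fun c => by
    have e1 : P.k4zTriv.iv c = 0 := rfl
    have e2 : P.k4zTriv.n = 0 := rfl
    rw [e1, e2]
    norm_num
  A_meas := fun c => hP.Sp_meas c
  A_sub := fun c => subset_rfl
  A_disj := fun c c' hne hw _ => absurd hw hne
  S_meas := fun c => (hP.Ev_meas c).inter ((hP.Sp_meas c).prod measurableSet_Ico)
  S_sub := fun c => subset_rfl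
  inv := fun c => one_mul _
  adm := fun c => hP.Pst_adm c

theorem k4z_triv_mn : kbMn (1 : Matrix (Fin v.j) (Fin v.j) ℝ) ≤ 2 := by
  have h1 : ∀ m : ℕ, kbMn (1 : Matrix (Fin m) (Fin m) ℝ) = m := by
    intro m
    have h2 : ∀ i k : Fin m, |(if i = k then (1 : ℝ) else 0)| = if i = k then 1 else 0 := by
      intro i k
      split_ifs <;> simp
    simp only [kbMn, Matrix.one_apply, h2, Finset.sum_ite_eq, Finset.mem_univ, if_true, Finset.sum_const,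
      Finset.card_univ, Fintype.card_fin, nsmul_eq_mul, mul_one]
  rw [h1]
  cases v
  · simp [KbVer.j]
  · simp [KbVer.j]

theorem k4z_triv_tmp (P : KbPb v) {Q : ℝ} (hQ : 1 ≤ Q) (hc : (Fintype.card P.W : ℝ) ≤ Q) : P.k4zTriv.Tmp Q where
  card := hc
  q_low := by rw [k4z_triv_q, mul_one]; exact hQ
  J_low := fun c => by
    have e : (P.k4zTriv.ch c).J = |(1 : Matrix (Fin v.j) (Fin v.j) ℝ).det| := rfl
    rw [e, Matrix.det_one, abs_one, mul_one]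
    exact hQ
  cen := fun c => by
    have e1 : (P.k4zTriv.ch c).y0 = 0 := rfl
    have e2 : (P.k4zTriv.ch c).y1 = 0 := rfl
    rw [e1, e2, norm_zero, add_zero]
    linarith

theorem k4z_triv_geo (P : KbPb v) {K : ℝ} (hK : 2 ≤ K) (hN : P.Ntv K) : P.k4zTriv.Geo K 1 where
  size := fun c => by
    rw [k4z_triv_q, one_mul]
    exact k4z_triv_mn.trans hK
  box := fun c l hl t ht => by
    have e1 : (P.k4zTriv.ch c).Di = 1 := rfl
    have e2 : (P.k4zTriv.ch c).yc t = 0 + t • (0 : KbB v) := rfl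
    rw [e1, e2, Matrix.one_mulVec, smul_zero, add_zero, sub_zero]
    have h1 := hN.base c l hl t (k4z_triv_I P c ht)
    have h2 : 0 ≤ ‖kbV (P.co c l)‖ := norm_nonneg _
    change ‖kbY (P.co c l) t‖ ≤ K
    linarith
  val := fun c l hl t ht => by
    rw [mul_one]
    exact hN.sig c l hl t (k4z_triv_I P c ht)
  dw := fun c l hl t ht => hN.dw c l hl t (k4z_triv_I P c ht)
  dw_low := fun c x hx => hN.dw_low c x hx.1
  dww := fun c t y w => by
    rw [mul_one]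
    exact hN.dww c t y w

theorem k4z_triv_big (P : KbPb v) (hP : P.WF) {K : ℝ} (hN : P.Ntv K) : P.k4zTriv.Big K := by
  have e : P.k4zTriv.mass = P.tot := by
    have e1 : P.k4zTriv.mass = ∑ γ : P.W, P.om γ * P.k4zTriv.mC γ := rfl
    rw [e1, KbPb.tot, KbPb.mass]
    exact Finset.sum_congr rfl fun γ _ => by rw [k4z_triv_mass P hP γ]
  rw [KbSys.Big, e]
  exact hN.mass

theorem k4z_triv_known (P : KbPb v) {D : Type} (ℓ : P.Lab D) {K : ℝ} (hK : 1 ≤ K) : P.k4zTriv.Known ℓ K := by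
  classical
  refine ⟨fun γ _ _ => ({γ} : Finset P.W), fun γ d o => ?_, fun γ d c => MeasurableSet.const _, fun c x _ => ?_⟩
  · change ((({γ} : Finset P.W).card : ℝ) ≤ K)
    rw [Finset.card_singleton]
    simpa using hK
  · exact Finset.mem_singleton_self c

/-- **LEAF L-252-S4Z-C4** (~200 l. with `k4z_triv_mass`).  The trivial atlas: depth `0`, cost `0`.   All fields from `F.Ok` (`WF`, `Tmp`, `Ntv`); `a 0 = 1`, `q = 1`, `J = 1`; `kbMn 1 = v.j ≤ 2 ≤ N^τ` eventually; `Big` from `Ntv.mass` and `k4z_triv_mass`;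
`Known`: `Lst γ _ _ := {γ}`. -/
theorem k4z_triv_atlas (F : KbEx v) (hF : F.Ok) : F.IsAtlas (fun k => (F.P k).k4zTriv) 0 0 := by
  obtain ⟨_, ⟨M, hM⟩, hN⟩ := hF
  refine ⟨⟨⟨max M 0, ?_⟩, ?_, ?_⟩, ?_⟩
  · filter_upwards [hM] with k hk
    have h1 := kb_res_one_le F.R k
    refine ⟨k4z_triv_wf _ hk.1, k4z_triv_tmp _ (Real.one_le_rpow h1 (le_max_right _ _)) ?_⟩
    exact hk.2.card.trans (Real.rpow_le_rpow_of_exponent_le h1 (le_max_left _ _))
  · intro τ hτ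
    filter_upwards [hM, hN τ hτ, (kb_rpow_tendsto F.R hτ).eventually_ge_atTop 2] with k hk hk2 hk3
    have ea : F.a 0 k = 1 := by rw [KbEx.a, neg_zero, Real.rpow_zero]
    rw [ea]
    exact ⟨k4z_triv_geo _ hk3 hk2, k4z_triv_big _ hk.1 hk2⟩
  · intro τ hτ
    refine Eventually.of_forall fun k => ?_
    have h1 := kb_res_one_le F.R k
    simp only [k4z_triv_q]
    constructor
    · exact Real.rpow_le_one_of_one_le_of_nonpos h1 (by linarith)
    · exact Real.one_le_rpow h1 (by linarith)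
  · intro τ hτ
    refine Eventually.of_forall fun k => ?_
    exact k4z_triv_known _ _ (Real.one_le_rpow (kb_res_one_le F.R k) hτ.le)

/-- **LEAF L-252-S4Z-C5** (~60 l.).  (`hP.co_meas`, `measurable_pi_iff`, `Int.measurable_floor`; as `k2a_vel_meas`; `kpPv` is an `if` on a constant proposition.) -/
theorem k4z_vb_meas (P : KbPb v) (hP : P.WF) (p : KpPrm) (fr : P.W → Matrix (Fin v.j) (Fin v.j) ℝ) (a b : ℝ) : P.LabMeas (P.lpair (P.hid a) (kpVb P p fr b)) := by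
  have h2 : P.LabMeas (kpVb P p fr b) := by
    intro γ d
    have hV : Measurable fun x : P.Lam × ℝ => (fr γ).mulVec (kbV (P.co γ x.1)) := by
      have hc := hP.co_meas γ
      refine measurable_pi_iff.2 fun i => ?_
      unfold Matrix.mulVec dotProduct kbV
      fun_prop
    have h : Measurable (kpVb P p fr b γ) := by
      refine measurable_pi_iff.2 fun i => ?_
      unfold kpVb kbBin kpPv
      by_cases hp : 0 < p.ell
      · simp only [if_pos hp]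
        by_cases hi : (i : ℕ) = 0
        · simp only [if_pos hi]
          exact Int.measurable_floor.comp (((measurable_pi_apply i).comp hV).div_const _)
        · simp only [if_neg hi]
          exact measurable_const
      · simp only [if_neg hp]
        exact Int.measurable_floor.comp (((measurable_pi_apply i).comp hV).div_const _)
    exact h (measurableSet_singleton d)
  exact fun γ => k2a_lab_pair (k2a_hid_meas hP a γ) (h2 γ)

theorem k4z_cv_card {δ p : ℝ} {n : ℕ} (hn : 2 * p / δ + 2 ≤ n) (y : ℝ) :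
    (Finset.Icc ⌊(y - p) / δ⌋ ⌊(y + p) / δ⌋).card ≤ n := by
  rw [Int.card_Icc, Int.toNat_le]
  have h1 : (⌊(y + p) / δ⌋ : ℝ) ≤ (y + p) / δ := Int.floor_le _
  have h2 : (y - p) / δ < ⌊(y - p) / δ⌋ + 1 := Int.lt_floor_add_one _
  have h3 : (y + p) / δ - (y - p) / δ = 2 * p / δ := by ring
  have h4 : ((⌊(y + p) / δ⌋ + 1 - ⌊(y - p) / δ⌋ : ℤ) : ℝ) < ((n : ℤ) : ℝ) := by
    push_cast
    linarith
  exact le_of_lt (by exact_mod_cast h4)

theorem k4z_cv_bins {j : ℕ} {δ r : ℝ} (hδ : 0 < δ) {n : ℕ} (hn : 2 * r / δ + 2 ≤ n) (x0 : Fin j → ℝ) :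
    (∀ x : Fin j → ℝ, (∀ i, |x i - x0 i| ≤ r) → (fun i => ⌊x i / δ⌋) ∈ Fintype.piFinset fun i => Finset.Icc ⌊(x0 i - r) / δ⌋ ⌊(x0 i + r) / δ⌋) ∧
      (Fintype.piFinset fun i => Finset.Icc ⌊(x0 i - r) / δ⌋ ⌊(x0 i + r) / δ⌋).card ≤ n ^ j := by
  constructor
  · intro x hx
    refine Fintype.mem_piFinset.2 fun i => ?_
    have h2 := abs_le.1 (hx i)
    refine Finset.mem_Icc.2 ⟨Int.floor_le_floor ?_, Int.floor_le_floor ?_⟩
    · exact div_le_div_of_nonneg_right (by linarith) hδ.le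
    · exact div_le_div_of_nonneg_right (by linarith) hδ.le
  · rw [Fintype.card_piFinset]
    calc ∏ i : Fin j, (Finset.Icc ⌊(x0 i - r) / δ⌋ ⌊(x0 i + r) / δ⌋).card ≤ ∏ _i : Fin j, n :=
          Finset.prod_le_prod' fun i _ => k4z_cv_card hn (x0 i)
      _ = n ^ j := by simp

theorem k4z_cv_core (D : Matrix (Fin 2) (Fin 2) ℝ) (hD : D.det ≠ 0) {q K δ : ℝ} (hq : 0 < q) (hK : 1 ≤ K) (hδ : 0 < δ) (hsize : kbMn D ≤ q * K)
    (hnar : 2 * |D.det| ≤ (q * δ) ^ 2) (y1 : Fin 2 → ℝ) (n : ℕ) (hn : 6 * K + 2 ≤ n) :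
    ∃ L : ℤ → Finset (Fin 2 → ℤ), (∀ bb, (L bb).card ≤ n ^ 2) ∧
      ∀ V : Fin 2 → ℝ, (∀ i, |V i| ≤ K) → (fun i => ⌊(y1 + (1 / q) • D.mulVec V) i / δ⌋) ∈ L ⌊((k4zFr2 D).mulVec V) 0 / δ⌋ := by
  choose z hz using fun bb : ℤ => k4z_cover2 D hD hq hK hδ hsize hnar y1 bb
  have hn' : 2 * (3 * K * δ) / δ + 2 ≤ n := by
    have : 2 * (3 * K * δ) / δ = 6 * K := by field_simp; ring
    rw [this]; exact hn
  refine ⟨fun bb => Fintype.piFinset fun i => Finset.Icc ⌊(z bb i - 3 * K * δ) / δ⌋ ⌊(z bb i + 3 * K * δ) / δ⌋, ?_, ?_⟩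
  · intro bb
    exact (k4z_cv_bins hδ hn' (z bb)).2
  · intro V hV
    exact (k4z_cv_bins hδ hn' (z _)).1 _ (hz _ V hV rfl)

/-- **LEAF L-252-S4Z-C6** (~220 l.).  The list of the same-level cover, one sample.
PROOF.  `subst hv`.   First components: EQUAL by `k4z_hid`.   Second components: `δ := kbDy b ≥ b`, `V_E = y₁ + (1 / q_A) D_A V_F` (`k4c_ch_vel` at `m = c.len - 1`, `k4c_ch_inc_fst`, `k4z_node`), `|V_F i| ≤ K` (`Ntv.base`, `Ev_sub`, `norm_le_pi_norm`),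
`kpVb .. d x 0 = ⌊((k4zFr2 D_A) V_F) 0 / δ⌋` (`kpPv`, `if_pos hp`), `k4z_cover2` gives a centre `z` for every bin (choice), `k4c_bins_cube` (`r = 3 K δ`) the list `{y.1} ×ˢ piFinset ..` (independent of `o`). -/
theorem k4z_cover (hv : v = KbVer.two) {E : KbEx v} (c : K4cCh v E) (k : ℕ) (p : KpPrm) (hp : 0 < p.ell) (hc : c.WFat k) (hlen : 0 < c.len) (hF : (c.last.P k).WF) {K b : ℝ}
    (hK : 1 ≤ K) (hN : (c.last.P k).Ntv K) (hb : 0 < b) (hq : 0 < c.k4zQ k) (hdet : ∀ d, (c.k4zD k d).det ≠ 0) (hsize : ∀ d, kbMn (c.k4zD k d) ≤ c.k4zQ k * K)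
    (hnar : ∀ d, 2 * |(c.k4zD k d).det| ≤ (c.k4zQ k * b) ^ 2) (n : ℕ) (hn : 6 * K + 2 ≤ n) (s : ℝ) (d : (c.last.P k).W) :
    ∃ Lst : ℤ × (Fin v.j → ℤ) → ℝ × KbB v → Finset (ℤ × (Fin v.j → ℤ)), (∀ y o, (Lst y o).card ≤ n ^ 2) ∧ (∀ y y', MeasurableSet {o | y' ∈ Lst y o}) ∧
      ∀ x ∈ (c.last.P k).Ev d, (E.P k).hv (E.a (c.k4zDp + s) k) b (c.anc k d) (c.inc k d x) ∈
        Lst ((c.last.P k).lpair ((c.last.P k).hid (c.last.a s k)) (kpVb (c.last.P k) p (c.k4zO p k) b) d x) ((c.last.P k).bs d x) := by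
  subst hv
  obtain ⟨m, hm⟩ : ∃ m, m + 1 = c.len := ⟨c.len - 1, by omega⟩
  obtain ⟨δ, hδd⟩ : ∃ δ : ℝ, δ = kbDy b := ⟨_, rfl⟩
  have hδ0 : 0 < δ := by rw [hδd]; exact k2a_dy_pos b
  have hbδ : b ≤ δ := by rw [hδd]; exact (k2a_dy_bounds hb).1
  have hnar' : 2 * |(c.k4zD k d).det| ≤ (c.k4zQ k * δ) ^ 2 :=
    (hnar d).trans (pow_le_pow_left₀ (by positivity) (mul_le_mul_of_nonneg_left hbδ hq.le) 2)
  obtain ⟨i0, hi0⟩ : ∃ i0 : Fin KbVer.two.j, (i0 : ℕ) = 0 := ⟨(0 : Fin 2), rfl⟩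
  have hi0' : i0 = (0 : Fin 2) := Fin.ext hi0
  obtain ⟨L, hL1, hL2⟩ : ∃ L : ℤ → Finset (Fin KbVer.two.j → ℤ), (∀ bb, (L bb).card ≤ n ^ 2) ∧
      ∀ V : KbB KbVer.two, (∀ i, |V i| ≤ K) →
        (fun i => ⌊(((c.sys m k).ch (c.lab k m d)).y1 + (1 / c.k4zQ k) • (c.k4zD k d).mulVec V) i / δ⌋) ∈ L ⌊((k4zFr (c.k4zD k d)).mulVec V) i0 / δ⌋ := by
    rw [hi0']
    exact k4z_cv_core (c.k4zD k d) (hdet d) hq hK hδ0 (hsize d) hnar' _ n hn
  refine ⟨fun y _ => {y.1} ×ˢ L (y.2 i0), ?_, ?_, ?_⟩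
  · intro y o
    show ({y.1} ×ˢ L (y.2 i0)).card ≤ n ^ 2
    rw [Finset.card_product, Finset.card_singleton, one_mul]
    exact hL1 _
  · intro y y'
    exact MeasurableSet.const _
  · intro x hx
    have hxS := hF.Ev_sub d hx
    have hVF : ∀ i, |kbV ((c.last.P k).co d x.1) i| ≤ K := by
      intro i
      have h1 := hN.base d x.1 hxS.1 x.2 hxS.2
      have h2 : |kbV ((c.last.P k).co d x.1) i| ≤ ‖kbV ((c.last.P k).co d x.1)‖ := norm_le_pi_norm (kbV ((c.last.P k).co d x.1)) i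
      linarith [norm_nonneg (kbY ((c.last.P k).co d x.1) x.2)]
    have hvel := k4c_ch_vel c k hc m hm d x.1
    rw [(k4z_node c k m hm d).1, (k4z_node c k m hm d).2, ← k4c_ch_inc_fst c k d x] at hvel
    have hbin : kpVb (c.last.P k) p (c.k4zO p k) b d x i0 = ⌊((k4zFr (c.k4zD k d)).mulVec (kbV ((c.last.P k).co d x.1))) i0 / δ⌋ := by
      unfold kpVb kpPv kbBin K4cCh.k4zO
      simp only [if_pos hp, if_pos hi0]
      rw [hδd]
    have hcl := hL2 (kbV ((c.last.P k).co d x.1)) hVF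
    rw [← hvel, ← hbin, hδd] at hcl
    exact Finset.mem_product.2 ⟨Finset.mem_singleton.2 (k4z_hid c k rfl hc s d x).symm, hcl⟩

/-! ## D. The exits -/

section

variable {E : KbEx v} (c : K4cCh v E) (p : KpPrm) {d' S η : ℝ} {f : ℕ → ℝ → ℝ → ℝ} {r h nar : ℕ → ℝ}

/-- (Z1) -/
theorem k4z_O_inv (k : ℕ) (d : (c.last.P k).W) : c.k4zO p k d * c.k4zOi p k d = 1 := by
  unfold K4cCh.k4zO K4cCh.k4zOi
  split_ifs
  · exact k4z_fr_inv _
  · exact one_mul 1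

/-- (Z1) -/
theorem k4z_O_one (hp : p.ell = 0) (k : ℕ) (d : (c.last.P k).W) : c.k4zO p k d = 1 ∧ c.k4zOi p k d = 1 := by
  unfold K4cCh.k4zO K4cCh.k4zOi
  rw [if_neg (by rw [hp]; exact lt_irrefl 0), if_neg (by rw [hp]; exact lt_irrefl 0)]
  exact ⟨rfl, rfl⟩

/-- **LEAF L-252-S4Z-D0** (~40 l.).  (Z1)  (`k4z_fr_le`, `kbMn 1 = v.j ≤ 2`, `4 ≤ N^τ` eventually: `kb_rpow_tendsto`.) -/
theorem k4z_O_bd (τ : ℝ) (hτ : 0 < τ) : ∀ᶠ k in uf, ∀ d, kbMn (c.k4zO p k d) ≤ c.last.R.N k ^ τ ∧ kbMn (c.k4zOi p k d) ≤ c.last.R.N k ^ τ := by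
  have h1 : kbMn (1 : Matrix (Fin v.j) (Fin v.j) ℝ) ≤ 4 := by
    cases v
    · show kbMn (1 : Matrix (Fin 1) (Fin 1) ℝ) ≤ 4
      unfold kbMn
      simp
    · show kbMn (1 : Matrix (Fin 2) (Fin 2) ℝ) ≤ 4
      unfold kbMn
      simp [Fin.sum_univ_two, Matrix.one_apply]
      norm_num
  filter_upwards [(kb_rpow_tendsto c.last.R hτ).eventually_ge_atTop 4] with k hk d
  unfold K4cCh.k4zO K4cCh.k4zOi
  split_ifs
  · exact ⟨((k4z_fr_le _).1.trans (by norm_num)).trans hk, (k4z_fr_le _).2.trans hk⟩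
  · exact ⟨h1.trans hk, h1.trans hk⟩

theorem k4zd1_cap (hc : c.Ok d' S η f r h nar) (hlen : 0 < c.len) : E.Cap d' S η (f 0) := by
  cases c with
  | nil E => exact absurd hlen (by simp [K4cCh.len])
  | cons E Y r' t => exact hc.1.cap

/-- **LEAF L-252-S4Z-D1** (~150 l.).  L2.12 for the cumulative children.
PROOF.  `kb_axis E d' S η hS hη (f 0) hc.1.cap (c.k4zLift Y') _ _ (k4z_lift_atlas ..) α hα` (`c` is a `cons`).   `E.chMass (c.k4zLift Y') P_E k = (c.Zp k * ∑ e, if P_F e then .. else 0).toReal`: reindex with the equivalence `c.k4zC Y' k` (`Equiv.sum_comp`),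
`k4z_lift_wm`, `k4z_lift_D`, `k4z_lift_q`, `k4z_last_R`.   Division by `Zp`: `k4z_Zp_low`, `k2n_s1_pow_div`. -/
theorem k4z_axis (hS : 0 < S) (hη : 0 < η) (hc : c.Ok d' S η f r h nar) (hlen : 0 < c.len) (Y' : c.last.Sys) (s h' : ℝ) (hs : 0 ≤ s) (hsL : s ≤ c.last.L)
    (hY' : c.last.IsAtlas Y' s h') (α : ℝ) (hα : 0 < α) :
    KbPow c.last.R (c.last.chMass Y' fun k e => kbMn (c.k4zD k ((Y' k).wd e) * ((Y' k).ch e).D) ≤ c.last.R.N k ^ (-α) * (c.k4zQ k * (Y' k).q)) := by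
  classical
  have hcap := k4zd1_cap c hc hlen
  have hat := k4z_lift_atlas c hc Y' s h' hs hsL hY'
  obtain ⟨c0, hc0, hev⟩ := kb_axis E d' S η hS hη (f 0) hcap (c.k4zLift Y') _ _ hat α hα
  obtain ⟨-, ⟨M0, hP⟩, -⟩ := hcap.ok
  obtain ⟨M1, hL⟩ := hat.1.1
  obtain ⟨M2, hY⟩ := hY'.1.1
  rw [k4z_last_R]
  unfold KbEx.chMass
  refine k2n_s1_pow_div E.R c.Zp _ (k4z_Zp_low c hc) 1 c0 hc0 ?_
  filter_upwards [hev, hP, hL, hY, k4c_ch_wfat c hc] with k a1 a2 a3 a4 a5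
  have hN0 := kb_res_pos E.R k
  have key : (∑ e' : (c.k4zLift Y' k).C, if kbMn ((c.k4zLift Y' k).ch e').D ≤ E.R.N k ^ (-α) * (c.k4zLift Y' k).q then
        (E.P k).om ((c.k4zLift Y' k).wd e') * (c.k4zLift Y' k).mC e' else 0)
      = c.Zp k * ∑ e : (Y' k).C, if kbMn (c.k4zD k ((Y' k).wd e) * ((Y' k).ch e).D) ≤ E.R.N k ^ (-α) * (c.k4zQ k * (Y' k).q) then
        (c.last.P k).om ((Y' k).wd e) * (Y' k).mC e else 0 := by
    rw [← Equiv.sum_comp (c.k4zC Y' k), Finset.mul_sum]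
    refine Finset.sum_congr rfl fun e _ => ?_
    rw [k4z_lift_D, k4z_lift_q, k4z_lift_wm c k a5 Y' a4.1 e, mul_ite, mul_zero]
  have hfin : (∑ e' : (c.k4zLift Y' k).C, if kbMn ((c.k4zLift Y' k).ch e').D ≤ E.R.N k ^ (-α) * (c.k4zLift Y' k).q then
        (E.P k).om ((c.k4zLift Y' k).wd e') * (c.k4zLift Y' k).mC e' else 0) ≠ ⊤ := by
    refine ne_top_of_le_ne_top ENNReal.one_ne_top (le_trans ?_ (k2s_mass_le_one _ a2.1 a3.1))
    unfold KbSys.mass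
    refine Finset.sum_le_sum fun e _ => ?_
    split_ifs
    · exact le_rfl
    · exact zero_le
  have a1' : (∑ e' : (c.k4zLift Y' k).C, if kbMn ((c.k4zLift Y' k).ch e').D ≤ E.R.N k ^ (-α) * (c.k4zLift Y' k).q then
        (E.P k).om ((c.k4zLift Y' k).wd e') * (c.k4zLift Y' k).mC e' else 0) ≤ ENNReal.ofReal (E.R.N k ^ (-c0)) := by
    rw [ENNReal.le_ofReal_iff_toReal_le hfin (Real.rpow_nonneg hN0.le _)]
    exact a1
  rw [key] at a1'
  rw [one_mul, ENNReal.le_div_iff_mul_le (Or.inr (by simpa using Real.rpow_pos_of_pos hN0 _)) (Or.inr ENNReal.ofReal_ne_top), mul_comm]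
  exact a1'

/-- **LEAF L-252-S4Z-D2** (~220 l.).  (Z2) THE ANGULAR CEILING AT A PARENT, `0 < ell`.
PROOF.  `E.TypUp (E.hv E.L u) (f 0 E.L u)` (`hc.1.cap.hom.joint`), `f 0 E.L 0 + S u ≤ f 0 E.L u` (`.ang`).   `k4z_typUp_chain` for `ℓ = E.hv E.L u`; `k4z_typUp_cover` in `F = c.last` with the lists of `k4z_cover` (`s = F.L`, `b = F.a u k`, `K = N^{τ'}`,
`c.k4zDp + F.L = E.L` by `k4z_last_L`; `hsize, hnar` from `k4z_par`: `2 N^{-x + τ'} ≤ N^{-2u}` eventually since `2 u < x`; `n := ⌈6 K + 2⌉₊`, `n² ≤ N^τ`);   exponent: `k4z_prof`;   `TypUp` is monotone (a smaller exponent is weaker). -/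
theorem k4z_ang (hv : v = KbVer.two) (hp : 0 < p.ell) (hc : c.Ok d' S η f r h nar) (hlen : 0 < c.len) (fF : ℝ → ℝ → ℝ) (hF : c.last.Cap d' S η fF) (u : ℝ) (hu : 0 < u)
    (huη : u ≤ η * E.L) (hux : 2 * u < ∑ i ∈ Finset.range c.len, nar i) :
    c.last.TypUp (fun k => (c.last.P k).lpair ((c.last.P k).hid (c.last.a c.last.L k)) (kpVb (c.last.P k) p (c.k4zO p k) (c.last.a u k))) (fF c.last.L 0 + S * u) := by
  have hcap : E.Cap d' S η (f 0) := by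
    cases c with
    | nil E => exact absurd hlen (by simp [K4cCh.len])
    | cons E Y r' t => exact hc.1.cap
  have hUp0 : E.TypUp (E.hv E.L u) (f 0 E.L u) := (hcap.hom.joint E.L ⟨hcap.ok.1.le, le_rfl⟩ u hu.le).1
  have hang := hcap.ang u hu huη
  obtain ⟨ME, hME⟩ := hcap.ok.2.1
  obtain ⟨MF, hMF⟩ := hF.ok.2.1
  have hℓ : ∀ᶠ k in uf, (E.P k).LabMeas (E.hv E.L u k) := hME.mono fun k hk => k2a_hv_meas hk.1 _ _
  have hch := k4z_typUp_chain c hc (E.hv E.L u) hℓ (f 0 E.L u) hUp0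
  have hR := k4z_last_R c
  have hLL := k4z_last_L c
  have hℓ1 : ∀ᶠ k in uf, (c.last.P k).LabMeas (c.k4zL (E.hv E.L u) k) := by
    filter_upwards [hℓ] with k hk d y
    exact (k4c_ch_inc_meas c k d) (hk (c.anc k d) y)
  have hℓ2 : ∀ᶠ k in uf, (c.last.P k).LabMeas
      ((c.last.P k).lpair ((c.last.P k).hid (c.last.a c.last.L k)) (kpVb (c.last.P k) p (c.k4zO p k) (c.last.a u k))) :=
    hMF.mono fun k hk => k4z_vb_meas _ hk.1 p _ _ _
  have hcov := k4z_typUp_cover c.last hF.ok (c.k4zL (E.hv E.L u))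
    (fun k => (c.last.P k).lpair ((c.last.P k).hid (c.last.a c.last.L k)) (kpVb (c.last.P k) p (c.k4zO p k) (c.last.a u k))) hℓ1 hℓ2 ?_ _ hch
  · refine k2a_up_mono hF.ok ?_ hcov
    rw [k4z_prof c hc hlen fF hF]
    linarith
  · intro τ hτ
    obtain ⟨x, hx⟩ : ∃ x : ℝ, x = ∑ i ∈ Finset.range c.len, nar i := ⟨_, rfl⟩
    rw [← hx] at hux
    obtain ⟨τ1, hτ1⟩ : ∃ τ1 : ℝ, τ1 = min (τ / 4) ((x - 2 * u) / 2) := ⟨_, rfl⟩
    have hτ1pos : 0 < τ1 := by rw [hτ1]; exact lt_min (by positivity) (by linarith)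
    have hτ1a : τ1 ≤ τ / 4 := by rw [hτ1]; exact min_le_left _ _
    have hτ1b : τ1 ≤ (x - 2 * u) / 2 := by rw [hτ1]; exact min_le_right _ _
    filter_upwards [k4z_par c hv hc hlen τ1 hτ1pos, hMF, hF.ok.2.2 (τ / 4) (by positivity),
      (kb_rpow_tendsto E.R (half_pos hτ)).eventually_ge_atTop 81,
      (kb_rpow_tendsto E.R (show 0 < (x - 2 * u) / 2 by linarith)).eventually_ge_atTop 2] with k a1 a2 a3 a4 a5
    obtain ⟨w1, w2, w3⟩ := a1
    rw [← hx] at w3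
    rw [hR] at a3 ⊢
    have hN0 := kb_res_pos E.R k
    have hN1 := kb_res_one_le E.R k
    obtain ⟨K, hKd⟩ : ∃ K : ℝ, K = E.R.N k ^ (τ / 4) := ⟨_, rfl⟩
    rw [← hKd] at a3
    have hK1 : 1 ≤ K := by rw [hKd]; exact Real.one_le_rpow hN1 (by positivity)
    have e1 : c.k4zDp + c.last.L = E.L := by rw [hLL]; ring
    have e2 : c.last.a u k = E.a u k := by unfold KbEx.a; rw [hR]
    have hb : 0 < E.a u k := Real.rpow_pos_of_pos hN0 _
    have hsize : ∀ d, kbMn (c.k4zD k d) ≤ c.k4zQ k * K := by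
      intro d
      refine (w3 d).2.1.trans (mul_le_mul_of_nonneg_left ?_ w2.le)
      rw [hKd]
      exact Real.rpow_le_rpow_of_exponent_le hN1 hτ1a
    have hnar : ∀ d, 2 * |(c.k4zD k d).det| ≤ (c.k4zQ k * E.a u k) ^ 2 := by
      intro d
      have h1 : 2 * E.R.N k ^ (-x + τ1) ≤ E.a u k ^ 2 := by
        calc 2 * E.R.N k ^ (-x + τ1) ≤ E.R.N k ^ ((x - 2 * u) / 2) * E.R.N k ^ (-x + τ1) :=
              mul_le_mul_of_nonneg_right a5 (Real.rpow_nonneg hN0.le _)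
          _ = E.R.N k ^ ((x - 2 * u) / 2 + (-x + τ1)) := (Real.rpow_add hN0 _ _).symm
          _ ≤ E.R.N k ^ (-u + -u) := Real.rpow_le_rpow_of_exponent_le hN1 (by linarith)
          _ = E.a u k ^ 2 := by rw [Real.rpow_add hN0, sq]; rfl
      calc 2 * |(c.k4zD k d).det| ≤ 2 * (c.k4zQ k ^ 2 * E.R.N k ^ (-x + τ1)) := by linarith [(w3 d).2.2]
        _ = c.k4zQ k ^ 2 * (2 * E.R.N k ^ (-x + τ1)) := by ring
        _ ≤ c.k4zQ k ^ 2 * E.a u k ^ 2 := mul_le_mul_of_nonneg_left h1 (by positivity)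
        _ = (c.k4zQ k * E.a u k) ^ 2 := by ring
    refine ⟨⌈6 * K + 2⌉₊ ^ 2, ?_, fun d => ?_⟩
    · have h1 : (⌈6 * K + 2⌉₊ : ℝ) ≤ 9 * K := by
        have := (Nat.ceil_lt_add_one (show 0 ≤ 6 * K + 2 by linarith)).le
        linarith
      have h2 : K ^ 2 = E.R.N k ^ (τ / 2) := by
        rw [hKd, sq, ← Real.rpow_add hN0]
        congr 1
        ring
      push_cast
      calc (⌈6 * K + 2⌉₊ : ℝ) ^ 2 ≤ (9 * K) ^ 2 := pow_le_pow_left₀ (Nat.cast_nonneg _) h1 2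
        _ = 81 * K ^ 2 := by ring
        _ = 81 * E.R.N k ^ (τ / 2) := by rw [h2]
        _ ≤ E.R.N k ^ (τ / 2) * E.R.N k ^ (τ / 2) := mul_le_mul_of_nonneg_right a4 (Real.rpow_nonneg hN0.le _)
        _ = E.R.N k ^ τ := kb_rpow_half E.R τ k
    · obtain ⟨Lst, l1, l2, l3⟩ := k4z_cover hv c k p hp w1 hlen a2.1 hK1 a3 hb w2 (fun d => (w3 d).1) hsize hnar ⌈6 * K + 2⌉₊
        (Nat.le_ceil _) c.last.L d
      refine ⟨Lst, l1, l2, fun y hy => ?_⟩
      have h3 := l3 y hy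
      rw [e1] at h3
      show (E.P k).hv (E.a E.L k) (E.a u k) (c.anc k d) (c.inc k d y) ∈
        Lst ((c.last.P k).lpair ((c.last.P k).hid (c.last.a c.last.L k)) (kpVb (c.last.P k) p (c.k4zO p k) (c.last.a u k)) d y) ((c.last.P k).bs d y)
      rw [e2]
      exact h3

theorem k4z_row_two (M : Matrix (Fin KbVer.two.j) (Fin KbVer.two.j) ℝ) : k4zRow M = ∑ l : Fin 2, |M (0 : Fin 2) l| := by
  unfold k4zRow
  show ∑ i : Fin 2, ∑ l : Fin 2, (if (i : ℕ) = 0 then |M i l| else 0) = _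
  rw [Fin.sum_univ_two]
  simp

theorem k4z_last_WF_aux : ∀ {E : KbEx v} (c : K4cCh v E) (k : ℕ), (E.P k).WF → c.WFat k → (c.last.P k).WF
  | _, K4cCh.nil _, _, hE, _ => hE
  | _, K4cCh.cons E Y r t, k, _, hc =>
    k4z_last_WF_aux t k ((Y k).k2n_norm_WF hc.1.1 hc.1.2.1 (E.a r k) (E.k2n_a_pos r k) hc.1.2.2.2 hc.1.2.2.1) hc.2

theorem k4z_last_WF : ∀ {E : KbEx v} (c : K4cCh v E) (k : ℕ), c.WFat k → 0 < c.len → (c.last.P k).WF
  | _, K4cCh.nil _, _, _, hlen => absurd hlen (lt_irrefl 0)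
  | _, K4cCh.cons E Y r t, k, hc, _ => k4z_last_WF_aux (K4cCh.cons E Y r t) k hc.1.1 hc

theorem k4z_major_aux (DA Ds : Matrix (Fin 2) (Fin 2) ℝ) (hD : DA.det ≠ 0) {q qs N α α₁ x : ℝ} (hN : 1 ≤ N) (hq : 0 < q) (hqs : 0 ≤ qs) (hα₁ : 0 < α₁) (hα : α₁ ≤ α) (hx : 4 * α₁ ≤ x)
    (hsize : kbMn DA ≤ q * N ^ (α₁ / 8)) (hdet : |DA.det| ≤ q ^ 2 * N ^ (-x + x / 4)) (hDs : kbMn Ds ≤ qs * N ^ (α₁ / 8)) (h2 : 2 ≤ N ^ (x / 4)) (h6 : 6 ≤ N ^ (α₁ / 4))
    (hrow : ∑ l, |(k4zFr2 DA * Ds) 0 l| ≤ N ^ (-α) * qs) : kbMn (DA * Ds) ≤ N ^ (-(α₁ / 2)) * (q * qs) := by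
  have hN0 : 0 < N := by linarith
  have hnar : 2 * |DA.det| ≤ (q * N ^ (-α₁)) ^ 2 := by
    have e1 : (q * N ^ (-α₁)) ^ 2 = q ^ 2 * N ^ (-(2 * α₁)) := by
      rw [mul_pow, ← Real.rpow_natCast (N ^ (-α₁)) 2, ← Real.rpow_mul hN0.le]
      congr 2
      push_cast
      ring
    rw [e1]
    have e2 : N ^ (x / 4) * N ^ (-x + x / 4) = N ^ (-(x / 2)) := by
      rw [← Real.rpow_add hN0]
      congr 1
      ring
    have e3 : N ^ (-(x / 2)) ≤ N ^ (-(2 * α₁)) := Real.rpow_le_rpow_of_exponent_le hN (by linarith)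
    have p1 : 0 < N ^ (-x + x / 4) := Real.rpow_pos_of_pos hN0 _
    have hq2 : 0 < q ^ 2 := by positivity
    calc 2 * |DA.det| ≤ 2 * (q ^ 2 * N ^ (-x + x / 4)) := by linarith
      _ = q ^ 2 * (2 * N ^ (-x + x / 4)) := by ring
      _ ≤ q ^ 2 * (N ^ (x / 4) * N ^ (-x + x / 4)) := by gcongr
      _ = q ^ 2 * N ^ (-(x / 2)) := by rw [e2]
      _ ≤ q ^ 2 * N ^ (-(2 * α₁)) := by gcongr
  have hrow' : ∑ l, |(k4zFr2 DA * Ds) 0 l| ≤ N ^ (-α₁) * qs :=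
    hrow.trans (mul_le_mul_of_nonneg_right (Real.rpow_le_rpow_of_exponent_le hN (by linarith)) hqs)
  have key := k4z_def2 DA Ds hD hq hqs (Real.one_le_rpow hN (by positivity)) (Real.rpow_nonneg hN0.le _) hsize hnar hDs hrow'
  refine key.trans (mul_le_mul_of_nonneg_right ?_ (by positivity))
  have p2 : 0 < N ^ (α₁ / 8) := Real.rpow_pos_of_pos hN0 _
  have p3 : 0 < N ^ (-α₁) := Real.rpow_pos_of_pos hN0 _
  calc 6 * N ^ (α₁ / 8) * N ^ (-α₁) ≤ N ^ (α₁ / 4) * N ^ (α₁ / 8) * N ^ (-α₁) := by gcongr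
    _ = N ^ (-(5 * α₁ / 8)) := by
        rw [← Real.rpow_add hN0, ← Real.rpow_add hN0]
        congr 1
        ring
    _ ≤ N ^ (-(α₁ / 2)) := Real.rpow_le_rpow_of_exponent_le hN (by linarith)

/-- **LEAF L-252-S4Z-D3** (~170 l.).  (Z3) MAJOR-COORDINATE FULLNESS.
PROOF.  `x := ∑ nar i`, `α₁ := min α (x / 4)`.   Eventually every label of the set lies in the set of `k4z_axis` for `α₁ / 2`: `k4z_def2` with `ε = N^{-α₁}`, `K = N^{α₁/8}` (`k4z_par`: `2 N^{-x + τ} ≤ N^{-2 α₁}`; `Geo.size` of `Y'`; `6 K ε ≤ N^{-α₁/2}`).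
`subst hv`; `k4zRow M = ∑ l, |M 0 l|` (`Fin.sum_univ_two`), `c.k4zO p k d = k4zFr2 (c.k4zD k d)` (`if_pos hp`, `rfl`).   `chMass` is monotone in the predicate; `KbPow` is monotone. -/
theorem k4z_major (hv : v = KbVer.two) (hp : 0 < p.ell) (hS : 0 < S) (hη : 0 < η) (hc : c.Ok d' S η f r h nar) (hlen : 0 < c.len) (hx : 0 < ∑ i ∈ Finset.range c.len, nar i)
    (Y' : c.last.Sys) (s h' : ℝ) (hs : 0 ≤ s) (hsL : s ≤ c.last.L) (hY' : c.last.IsAtlas Y' s h') (α : ℝ) (hα : 0 < α) :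
    KbPow c.last.R (c.last.chMass Y' fun k e => k4zRow (c.k4zO p k ((Y' k).wd e) * ((Y' k).ch e).D) ≤ c.last.R.N k ^ (-α) * (Y' k).q) := by
  subst hv
  obtain ⟨x, hxd⟩ : ∃ x : ℝ, x = ∑ i ∈ Finset.range c.len, nar i := ⟨_, rfl⟩
  rw [← hxd] at hx
  obtain ⟨α₁, hα₁d⟩ : ∃ α₁ : ℝ, α₁ = min α (x / 4) := ⟨_, rfl⟩
  have hα₁ : 0 < α₁ := by
    rw [hα₁d]
    exact lt_min hα (by positivity)
  have hα₁α : α₁ ≤ α := hα₁d ▸ min_le_left _ _
  have hα₁x : 4 * α₁ ≤ x := by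
    have : α₁ ≤ x / 4 := hα₁d ▸ min_le_right _ _
    linarith
  obtain ⟨c0, hc0, hpow⟩ := k4z_axis c hS hη hc hlen Y' s h' hs hsL hY' (α₁ / 2) (by positivity)
  have hRN : ∀ k, E.R.N k = c.last.R.N k := fun k => by rw [k4z_last_R]
  obtain ⟨M1, hM1⟩ := hY'.1.1
  refine ⟨c0, hc0, ?_⟩
  filter_upwards [hpow, k4z_par c rfl hc hlen (x / 4) (by positivity), k4z_par c rfl hc hlen (α₁ / 8) (by positivity), hY'.1.2.1 (α₁ / 8) (by positivity), hM1,
    (kb_rpow_tendsto c.last.R (show 0 < x / 4 by positivity)).eventually_ge_atTop 2, (kb_rpow_tendsto c.last.R (show 0 < α₁ / 4 by positivity)).eventually_ge_atTop 6]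
    with k h1 h2 h3 h4 h5 h6 h7
  refine le_trans ?_ h1
  unfold KbEx.chMass
  have hq' : 0 < (Y' k).q := (Y' k).k2n_q_pos
  refine ENNReal.toReal_mono ?_ (Finset.sum_le_sum fun e _ => ?_)
  · have hP := k4z_last_WF c k h2.1 hlen
    refine ne_top_of_le_ne_top ENNReal.one_ne_top (le_trans (Finset.sum_le_sum fun e _ => ?_) (((Y' k).k2n_mass_le_Z hP h5.1).trans ((Y' k).k2n_Z_le_one hP h5.1)))
    split_ifs
    · exact le_rfl
    · exact zero_le
  · by_cases he : k4zRow (c.k4zO p k ((Y' k).wd e) * ((Y' k).ch e).D) ≤ c.last.R.N k ^ (-α) * (Y' k).q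
    · have hQ : kbMn (c.k4zD k ((Y' k).wd e) * ((Y' k).ch e).D) ≤ c.last.R.N k ^ (-(α₁ / 2)) * (c.k4zQ k * (Y' k).q) := by
        have eO : c.k4zO p k ((Y' k).wd e) = k4zFr2 (c.k4zD k ((Y' k).wd e)) := by
          unfold K4cCh.k4zO
          rw [if_pos hp]
          rfl
        rw [eO, k4z_row_two] at he
        obtain ⟨a1, a2, a3⟩ := h2.2.2 ((Y' k).wd e)
        obtain ⟨b1, b2, b3⟩ := h3.2.2 ((Y' k).wd e)
        rw [hRN k, ← hxd] at a3
        rw [hRN k] at b2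
        exact k4z_major_aux (c.k4zD k ((Y' k).wd e)) ((Y' k).ch e).D a1 (kb_res_one_le _ k) h2.2.1 hq'.le hα₁ hα₁α hα₁x b2 a3 (h4.1.size e) h6 h7 he
      rw [if_pos he, if_pos hQ]
    · rw [if_neg he]
      exact zero_le

theorem k4z_root_aux (DA Di2 : Matrix (Fin 2) (Fin 2) ℝ) (q t : ℝ) (hinv : DA * Di2 = 1) (ht0 : 0 < t) (h4 : 4 ≤ t) (hd : t * t < q * ∑ l, |(k4zFr2 DA * Di2) 0 l|) :
    kbMn DA ≤ t⁻¹ * q := by
  have hrow := k4z_row2 DA Di2 hinv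
  set Rw : ℝ := ∑ l : Fin 2, |(k4zFr2 DA * Di2) 0 l| with hRw
  have hRw0 : 0 ≤ Rw := Finset.sum_nonneg fun l _ => abs_nonneg _
  by_contra hcon
  have hcon' : t⁻¹ * q < kbMn DA := not_le.1 hcon
  have h5 : q < kbMn DA * t := by
    have := mul_lt_mul_of_pos_right hcon' ht0
    rwa [mul_comm t⁻¹, mul_assoc, inv_mul_cancel₀ ht0.ne', mul_one] at this
  have h6 : q * Rw ≤ kbMn DA * t * Rw := mul_le_mul_of_nonneg_right h5.le hRw0
  have h7 : kbMn DA * t * Rw ≤ 4 * t := by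
    have : kbMn DA * t * Rw = (kbMn DA * Rw) * t := by ring
    rw [this]
    exact mul_le_mul_of_nonneg_right hrow ht0.le
  have h8 : 4 * t ≤ t * t := mul_le_mul_of_nonneg_right h4 ht0.le
  linarith

/-- **LEAF L-252-S4Z-D4** (~150 l.).  (Z4) THE MAJOR VELOCITY IS A LIPSCHITZ FUNCTION OF THE VELOCITY IN `E`.
PROOF.  `k4z_axis` for the trivial atlas (`k4z_triv_atlas`, `s = 0`), exponent `α / 2`: `chMass` of the trivial atlas = mass of the worlds (`k4z_triv_mass`).   A world of the set has `kbMn D_A < 4 N^{-α} q_A` by `k4z_row2` (`D * Di = 1`: `k4c_ch_WF`; `k4z_node`). -/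
theorem k4z_root (hv : v = KbVer.two) (hp : 0 < p.ell) (hS : 0 < S) (hη : 0 < η) (hc : c.Ok d' S η f r h nar) (m : ℕ) (hm : m + 1 = c.len) (hF : c.last.Ok) (α : ℝ) (hα : 0 < α) :
    KbPow c.last.R (c.last.massOf fun k d => {_x | c.last.R.N k ^ α < (c.sys m k).q * k4zRow (c.k4zO p k d * ((c.sys m k).ch (c.lab k m d)).Di)}) := by
  subst hv
  have hlen : 0 < c.len := by omega
  have hα2 : 0 < α / 2 := by positivity
  obtain ⟨c0, hc0, hpow⟩ := k4z_axis c hS hη hc hlen (fun k => (c.last.P k).k4zTriv) 0 0 le_rfl hF.1.le (k4z_triv_atlas c.last hF) (α / 2) hα2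
  obtain ⟨M, hM⟩ := hF.2.1
  refine ⟨c0, hc0, ?_⟩
  filter_upwards [hpow, hM, k4c_ch_wfat c hc, (kb_rpow_tendsto c.last.R hα2).eventually_ge_atTop 4] with k h1 h2 h3 h4
  refine le_trans ?_ h1
  have hN0 := kb_res_pos c.last.R k
  unfold KbEx.massOf KbEx.chMass
  have hterm : ∀ d : (c.last.P k).W, (c.last.P k).om d * (c.last.P k).mu d {_x | c.last.R.N k ^ α < (c.sys m k).q * k4zRow (c.k4zO p k d * ((c.sys m k).ch (c.lab k m d)).Di)} ≤
      @ite _ (kbMn (c.k4zD k (((c.last.P k).k4zTriv).wd d) * (((c.last.P k).k4zTriv).ch d).D) ≤ c.last.R.N k ^ (-(α / 2)) * (c.k4zQ k * ((c.last.P k).k4zTriv).q)) (Classical.propDecidable _)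
        ((c.last.P k).om (((c.last.P k).k4zTriv).wd d) * ((c.last.P k).k4zTriv).mC d) 0 := by
    intro d
    by_cases hd : c.last.R.N k ^ α < (c.sys m k).q * k4zRow (c.k4zO p k d * ((c.sys m k).ch (c.lab k m d)).Di)
    · have hQ : kbMn (c.k4zD k (((c.last.P k).k4zTriv).wd d) * (((c.last.P k).k4zTriv).ch d).D) ≤ c.last.R.N k ^ (-(α / 2)) * (c.k4zQ k * ((c.last.P k).k4zTriv).q) := by
        have e1 : (((c.last.P k).k4zTriv).ch d).D = 1 := rfl
        have e2 : ((c.last.P k).k4zTriv).q = 1 := by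
          show kbQ 0 = 1
          simp [kbQ]
        have e3 : ((c.last.P k).k4zTriv).wd d = d := rfl
        rw [e1, e2, e3, mul_one, mul_one]
        obtain ⟨n1, n2⟩ := k4z_node c k m hm d
        have hW := k4c_ch_WF c k h3 m (by omega)
        have hinv := hW.inv (c.lab k m d)
        rw [n1] at hinv
        have eO : c.k4zO p k d = k4zFr2 (c.k4zD k d) := by
          unfold K4cCh.k4zO
          rw [if_pos hp]
          rfl
        rw [eO, k4z_row_two, n2, ← kb_rpow_half c.last.R α k] at hd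
        rw [Real.rpow_neg hN0.le]
        exact k4z_root_aux (c.k4zD k d) ((c.sys m k).ch (c.lab k m d)).Di (c.k4zQ k) _ hinv (Real.rpow_pos_of_pos hN0 _) h4 hd
      rw [if_pos hQ, k4z_triv_mass _ h2.1 d]
      exact mul_le_mul_right (measure_mono (Set.subset_univ _)) _
    · have : {_x : (c.last.P k).Lam × ℝ | c.last.R.N k ^ α < (c.sys m k).q * k4zRow (c.k4zO p k d * ((c.sys m k).ch (c.lab k m d)).Di)} = ∅ := by
        ext x
        simp only [Set.mem_setOf_eq, Set.mem_empty_iff_false, iff_false]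
        exact hd
      rw [this, measure_empty, mul_zero]
      exact zero_le
  refine ENNReal.toReal_mono ?_ (Finset.sum_le_sum fun d _ => hterm d)
  refine ne_top_of_le_ne_top ENNReal.one_ne_top (le_trans (Finset.sum_le_sum fun d _ => ?_) (k2a_tot_le h2.1))
  split_ifs
  · rw [k4z_triv_mass _ h2.1 d]
    exact le_rfl
  · exact zero_le

end

/-- **LEAF L-252-S4Z-D5** (~70 l.).  (Z2) for `ell = 0`: the label is `F.hv F.L u` (`kpPv p V = V`, `Matrix.one_mulVec`; `funext`), `hF.hom.joint`, `hF.ang`, monotonicity of `TypUp` in the exponent. -/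
theorem k4z_ang0 (F : KbEx v) (p : KpPrm) (hp : p.ell = 0) {d' S η : ℝ} (fF : ℝ → ℝ → ℝ) (hF : F.Cap d' S η fF) (u : ℝ) (hu : 0 < u) (huη : u ≤ η * F.L) :
    F.TypUp (fun k => (F.P k).lpair ((F.P k).hid (F.a F.L k)) (kpVb (F.P k) p (fun _ => 1) (F.a u k))) (fF F.L 0 + S * u) := by
  have e : (fun k => (F.P k).lpair ((F.P k).hid (F.a F.L k)) (kpVb (F.P k) p (fun _ => 1) (F.a u k))) = F.hv F.L u := by
    funext k
    unfold KbEx.hv KbPb.hv
    congr 1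
    funext γ x i
    unfold kpVb kpPv KbPb.vel
    rw [if_neg (by rw [hp]; exact lt_irrefl 0), Matrix.one_mulVec]
  rw [e]
  exact k2a_up_mono hF.ok (hF.ang u hu huη) (hF.hom.joint F.L ⟨hF.ok.1.le, le_rfl⟩ u hu.le).1

end

end Claimed.Agent.R252
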