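import Claimed.Agent.R252.S4C.ChainDefs
import Claimed.Agent.R252.S4C.LinContract

/-!
# ROW 252 (S0492), unit S4Z (helper269, sub-block of `KpHubWin`), file 1: ANCESTRY ALONG A CHAIN, REDUCED FRAMES.      Definitions only, no `sorry`.

Paper: 04 l.572-612 (angular ceilings at the parents, cumulative principal axes, major-coordinate fullness).
`c : K4cCh v E` a chain (helper294, `S4C/ChainDefs`), `F = c.last` the deepest problem = the PARENT problem of a window, `E` = the ancestor (the root of the path).   Everything is defined by structural recursion on `c`: NO casts.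
* `c.k4zD k d`, `c.k4zQ k`     cumulative matrix and time length of the world `d` of `F` (= chart of the last node at the label `c.lab k m d`, `m + 1 = c.len`: `k4z_node`);      `c.k4zDp` the total depth;
* `c.k4zL k ℓ`                 a label of `E` read in `F` (through `c.anc`, `c.inc`);
* `c.k4zLift Y'`, `c.k4zC Y' k`  a system of `F` lifted to `E`, and its labels (the identity in disguise);
* `P.k4zTriv`                  the trivial atlas (every world is one chart);
* `k4zFr D`, `k4zFri D`        the REDUCED FRAME of a planar matrix: `D = U diag(σ) (k4zFr D)` with `U` orthogonal, `σ 0 ≥ σ 1 > 0`, `σ 0 σ 1 = 2 |det D|` (`k4c_rect`); the rows of `k4zFr D` have `ℓ¹` norm `≤ 1`, `|det| = 1/2`;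
* `c.k4zO p k d`, `c.k4zOi p k d`   = `W.fr k d`, `W.fri k d` of `KpWin` (the identity if `ell = 0`).
-/

set_option autoImplicit false
set_option linter.unusedVariables false

namespace Claimed.Agent.R252

open MeasureTheory Filter Topology
open Claimed.Agent.R255 (uf)
open scoped ENNReal BigOperators

noncomputable section

/-! ## 1. Reduced frames -/

open Classical in
/-- the orthogonal matrix of the rectangle hull -/
def k4zU (D : Matrix (Fin 2) (Fin 2) ℝ) : Matrix (Fin 2) (Fin 2) ℝ := if h : D.det ≠ 0 then (k4c_rect D h).choose else 1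

open Classical in
/-- the two scales of the rectangle hull -/
def k4zSig (D : Matrix (Fin 2) (Fin 2) ℝ) : Fin 2 → ℝ := if h : D.det ≠ 0 then (k4c_rect D h).choose_spec.choose else 1

open Classical in
/-- the reduced frame `diag(σ)⁻¹ Uᵀ D` -/
def k4zFr2 (D : Matrix (Fin 2) (Fin 2) ℝ) : Matrix (Fin 2) (Fin 2) ℝ :=
  if D.det ≠ 0 then Matrix.diagonal (fun i => (k4zSig D i)⁻¹) * (k4zU D).transpose * D else 1

open Classical in
/-- its inverse `D⁻¹ U diag(σ)` -/
def k4zFri2 (D : Matrix (Fin 2) (Fin 2) ℝ) : Matrix (Fin 2) (Fin 2) ℝ :=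
  if D.det ≠ 0 then D⁻¹ * k4zU D * Matrix.diagonal (k4zSig D) else 1

/-- the reduced frame, both versions -/
def k4zFr : ∀ {v : KbVer}, Matrix (Fin v.j) (Fin v.j) ℝ → Matrix (Fin v.j) (Fin v.j) ℝ
  | .one, _ => 1
  | .two, D => k4zFr2 D

/-- its inverse -/
def k4zFri : ∀ {v : KbVer}, Matrix (Fin v.j) (Fin v.j) ℝ → Matrix (Fin v.j) (Fin v.j) ℝ
  | .one, _ => 1
  | .two, D => k4zFri2 D

variable {v : KbVer}

/-- the `ℓ¹` norm of the major row (index `0`) -/
def k4zRow (M : Matrix (Fin v.j) (Fin v.j) ℝ) : ℝ := ∑ i : Fin v.j, ∑ l : Fin v.j, if (i : ℕ) = 0 then |M i l| else 0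

/-- the trivial atlas: every world is one chart -/
def KbPb.k4zTriv (P : KbPb v) : KbSys P where
  n := 0
  C := P.W
  fC := P.fW
  wd := id
  iv := fun _ => 0
  A := P.Sp
  S := fun γ => P.Ev γ ∩ P.Sp γ ×ˢ kbI 0 0
  ch := fun γ => ⟨0, 0, 1, 1, P.Pst γ⟩

/-! ## 2. Ancestry -/

namespace K4cCh

/-- the cumulative matrix of a world of the deepest problem -/
def k4zD : ∀ {E : KbEx v} (c : K4cCh v E) (k : ℕ), (c.last.P k).W → Matrix (Fin v.j) (Fin v.j) ℝ
  | _, nil _, _ => fun _ => 1
  | _, cons _ Y _ t, k => fun d => ((Y k).ch (t.anc k d)).D * t.k4zD k d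

/-- the cumulative time length -/
def k4zQ : ∀ {E : KbEx v}, K4cCh v E → ℕ → ℝ
  | _, nil _, _ => 1
  | _, cons _ Y _ t, k => (Y k).q * t.k4zQ k

/-- the total depth -/
def k4zDp : ∀ {E : KbEx v}, K4cCh v E → ℝ
  | _, nil _ => 0
  | _, cons _ _ r t => r + t.k4zDp

/-- a label of `E` read in the deepest problem -/
def k4zL {E : KbEx v} (c : K4cCh v E) {D : Type} (ℓ : E.Lab D) : c.last.Lab D :=
  fun k d x => ℓ k (c.anc k d) (c.inc k d x)

/-- a system of the deepest problem lifted to `E` -/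
def k4zLift : ∀ {E : KbEx v} (c : K4cCh v E), c.last.Sys → E.Sys
  | _, nil _, Y' => Y'
  | _, cons E Y r t, Y' => E.lift Y r (t.k4zLift Y')

/-- the labels of the lifted system (the identity in disguise) -/
def k4zC : ∀ {E : KbEx v} (c : K4cCh v E) (Y' : c.last.Sys) (k : ℕ), (Y' k).C ≃ (c.k4zLift Y' k).C
  | _, nil _, _, _ => Equiv.refl _
  | _, cons _ _ _ t, Y', k => t.k4zC Y' k

/-- **the frame `W.fr`** to the major / minor coordinates of a parent -/
def k4zO {E : KbEx v} (c : K4cCh v E) (p : KpPrm) (k : ℕ) (d : (c.last.P k).W) : Matrix (Fin v.j) (Fin v.j) ℝ :=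
  if 0 < p.ell then k4zFr (c.k4zD k d) else 1

/-- **the frame `W.fri`** -/
def k4zOi {E : KbEx v} (c : K4cCh v E) (p : KpPrm) (k : ℕ) (d : (c.last.P k).W) : Matrix (Fin v.j) (Fin v.j) ℝ :=
  if 0 < p.ell then k4zFri (c.k4zD k d) else 1

end K4cCh

/-- Stores the on-demand equation lemmas of the definitions above in THIS module (rule 6 hygiene). -/
theorem k4z_defs_eqns_cite : True := by
  have := @k4zU.eq_1
  have := @k4zSig.eq_1
  have := @k4zFr2.eq_1
  have := @k4zFri2.eq_1
  have := @k4zFr.eq_1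
  have := @k4zFr.eq_2
  have := @k4zFri.eq_1
  have := @k4zFri.eq_2
  have := @k4zRow.eq_1
  have := @KbPb.k4zTriv.eq_1
  have := @K4cCh.k4zD.eq_1
  have := @K4cCh.k4zD.eq_2
  have := @K4cCh.k4zQ.eq_1
  have := @K4cCh.k4zQ.eq_2
  have := @K4cCh.k4zDp.eq_1
  have := @K4cCh.k4zDp.eq_2
  have := @K4cCh.k4zL.eq_1
  have := @K4cCh.k4zLift.eq_1
  have := @K4cCh.k4zLift.eq_2
  have := @K4cCh.k4zC.eq_1
  have := @K4cCh.k4zC.eq_2
  have := @K4cCh.k4zO.eq_1
  have := @K4cCh.k4zOi.eq_1
  trivial

end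

end Claimed.Agent.R252
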