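import Claimed.Agent.R252.S4Z.Contract
import Claimed.Agent.R252.S4W.Defs

/-!
# ROW 252 (S0492), unit S4Z, file 3 (helper15): THE ASSEMBLY  `K4wHubFr`  FROM THE EXITS OF `S4Z/Contract`.      No own `sorry`.

`fr := c.k4zO p`, `fri := c.k4zOi p`.   `inv, bd, one` = (Z1);  `ang` = (Z2) `k4z_ang`;  `major` = (Z3) `k4z_major`;  `lip` : `ΔV_F = q_A Di_A ΔV_E` (`k4c_ch_vel`), so `|(O ΔV_F) 0| ≤ q_A ‖row 0 of O Di_A‖₁ ‖ΔV_E‖`, and (Z4) `k4z_root`.
-/

set_option autoImplicit false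
set_option linter.unusedVariables false

namespace Claimed.Agent.R252

open MeasureTheory Filter Topology
open Claimed.Agent.R255 (uf)
open scoped ENNReal BigOperators

noncomputable section

variable {v : KbVer}

/-- the major coordinate of a product -/
theorem k4z_row_mulVec (M : Matrix (Fin v.j) (Fin v.j) ℝ) (w : KbB v) (i : Fin v.j) (hi : (i : ℕ) = 0) : |(M.mulVec w) i| ≤ k4zRow M * ‖w‖ := by
  have h1 : ∑ l, |M i l| ≤ k4zRow M := by
    unfold k4zRow
    have h2 : ∑ l, |M i l| = ∑ l, if (i : ℕ) = 0 then |M i l| else 0 := by simp [hi]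
    rw [h2]
    exact Finset.single_le_sum (f := fun i' : Fin v.j => ∑ l, if (i' : ℕ) = 0 then |M i' l| else 0)
      (fun i' _ => Finset.sum_nonneg fun l _ => by split_ifs <;> simp) (Finset.mem_univ i)
  calc |(M.mulVec w) i| = |∑ l, M i l * w l| := rfl
    _ ≤ ∑ l, |M i l * w l| := Finset.abs_sum_le_sum_abs _ _
    _ ≤ ∑ l, |M i l| * ‖w‖ := Finset.sum_le_sum fun l _ => by
        rw [abs_mul]
        exact mul_le_mul_of_nonneg_left (norm_le_pi_norm w l) (abs_nonneg _)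
    _ = (∑ l, |M i l|) * ‖w‖ := (Finset.sum_mul _ _ _).symm
    _ ≤ k4zRow M * ‖w‖ := mul_le_mul_of_nonneg_right h1 (norm_nonneg _)

theorem k4z_row_nonneg (M : Matrix (Fin v.j) (Fin v.j) ℝ) : 0 ≤ k4zRow M :=
  Finset.sum_nonneg fun i _ => Finset.sum_nonneg fun l _ => by split_ifs <;> simp

/-- the palette variable for positive narrowness -/
theorem k4z_pv_le (p : KpPrm) (hp : 0 < p.ell) (M : Matrix (Fin v.j) (Fin v.j) ℝ) (w : KbB v) : ‖kpPv p (M.mulVec w)‖ ≤ k4zRow M * ‖w‖ := by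
  rw [pi_norm_le_iff_of_nonneg (mul_nonneg (k4z_row_nonneg M) (norm_nonneg w))]
  intro i
  unfold kpPv
  rw [if_pos hp, Real.norm_eq_abs]
  by_cases hi : (i : ℕ) = 0
  · rw [if_pos hi]
    exact k4z_row_mulVec M w i hi
  · rw [if_neg hi, abs_zero]
    exact mul_nonneg (k4z_row_nonneg M) (norm_nonneg w)

/-- one sample: a world with a bounded major row of `O Di_A` is not `lipBad` -/
theorem k4z_lip_one {E : KbEx v} (c : K4cCh v E) (p : KpPrm) (hp : 0 < p.ell) (k : ℕ) (hc : c.WFat k) (m : ℕ) (hm : m + 1 = c.len) (d : (c.last.P k).W) {Λ : ℝ}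
    (h : (c.sys m k).q * k4zRow (c.k4zO p k d * ((c.sys m k).ch (c.lab k m d)).Di) ≤ Λ) : d ∉ c.ancLast.lipBad p (c.k4zO p) Λ k := by
  rintro ⟨l, -, l', -, hl⟩
  have hW := k4c_ch_WF c k hc m (by omega)
  have hq := k2s_q_pos (c.sys m k)
  set D := ((c.sys m k).ch (c.lab k m d)).D with hD
  set Di := ((c.sys m k).ch (c.lab k m d)).Di with hDi
  have hinv : Di * D = 1 := k2s_inv' (c.sys m k) hW _
  set w := kbV ((c.last.P k).co d l) - kbV ((c.last.P k).co d l') with hw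
  have e1 : c.ancLast.rv k d l - c.ancLast.rv k d l' = (1 / (c.sys m k).q) • D.mulVec w := by
    show kbV ((E.P k).co (c.anc k d) (c.lam k l)) - kbV ((E.P k).co (c.anc k d) (c.lam k l')) = _
    rw [k4c_ch_vel c k hc m hm d l, k4c_ch_vel c k hc m hm d l', hw, Matrix.mulVec_sub, smul_sub]
    abel
  have e2 : w = (c.sys m k).q • Di.mulVec (c.ancLast.rv k d l - c.ancLast.rv k d l') := by
    rw [e1, Matrix.mulVec_smul, Matrix.mulVec_mulVec, hinv, Matrix.one_mulVec, smul_smul, mul_one_div_cancel hq.ne', one_smul]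
  have e3 : (c.k4zO p k d).mulVec w = ((c.sys m k).q • (c.k4zO p k d * Di)).mulVec (c.ancLast.rv k d l - c.ancLast.rv k d l') := by
    conv_lhs => rw [e2]
    rw [Matrix.mulVec_smul, Matrix.mulVec_mulVec, Matrix.smul_mulVec]
  have e4 : k4zRow ((c.sys m k).q • (c.k4zO p k d * Di)) = (c.sys m k).q * k4zRow (c.k4zO p k d * Di) := by
    unfold k4zRow
    rw [Finset.mul_sum]
    refine Finset.sum_congr rfl fun i _ => ?_
    rw [Finset.mul_sum]
    refine Finset.sum_congr rfl fun l _ => ?_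
    split_ifs
    · rw [Matrix.smul_apply, smul_eq_mul, abs_mul, abs_of_pos hq]
    · rw [mul_zero]
  have h5 := k4z_pv_le p hp ((c.sys m k).q • (c.k4zO p k d * Di)) (c.ancLast.rv k d l - c.ancLast.rv k d l')
  rw [← e3, e4] at h5
  have h6 : ‖kpPv p ((c.k4zO p k d).mulVec w)‖ ≤ Λ * ‖c.ancLast.rv k d l - c.ancLast.rv k d l'‖ :=
    h5.trans (mul_le_mul_of_nonneg_right h (norm_nonneg _))
  exact absurd hl (not_lt.2 h6)

/-- **the frames of a parent for positive narrowness** -/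
theorem k4z_fr_ok (S η d' umax e κ : ℝ) (p : KpPrm) (E : KbEx KbVer.two) (c : K4cCh KbVer.two E) (f : ℕ → ℝ → ℝ → ℝ) (r h nar : ℕ → ℝ) (fF : ℝ → ℝ → ℝ)
    (hS : 0 < S) (hη : 0 < η) (hpS : p.S = S) (hp : 0 < p.ell) (hc : c.Ok d' S η f r h nar) (hlen : 0 < c.len) (hF : c.last.Cap d' S η fF) (he : e = fF c.last.L 0)
    (hu : 0 < umax) (huL : umax ≤ η * E.L) (hux : 2 * umax < ∑ i ∈ Finset.range c.len, nar i) (hκ : 0 ≤ κ) :
    c.ancLast.FrOk p umax e κ (c.k4zO p) (c.k4zOi p) where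
  inv := fun k γ => k4z_O_inv c p k γ
  bd := fun τ hτ => k4z_O_bd c p τ hτ
  one := fun h0 => absurd h0 hp.ne'
  ang := by
    intro u hu0 hu1
    have := k4z_ang c p rfl hp hc hlen fF hF u hu0 (hu1.trans huL) (by linarith)
    rw [he, hpS]
    exact this
  major := by
    intro _ Y ρ h' hρ hρL hY α hα
    exact k4z_major c p rfl hp hS hη hc hlen (by linarith) Y ρ h' hρ hρL.le hY α hα
  lip := by
    intro α hα
    obtain ⟨m, hm⟩ : ∃ m, m + 1 = c.len := ⟨c.len - 1, by omega⟩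
    obtain ⟨c₀, hc₀, h1⟩ := k4z_root c p rfl hp hS hη hc m hm hF.ok α hα
    obtain ⟨MP, hMP⟩ := hF.ok.2.1
    refine ⟨c₀, hc₀, ?_⟩
    filter_upwards [h1, k4c_ch_wfat c hc, hMP] with k a1 a2 a3
    refine le_trans (ENNReal.toReal_mono (k2n_s1_mass_ne_top a3.1 _) (k2a_mass_mono fun d x hx => ?_)) a1
    have hx' : d ∈ c.ancLast.lipBad p (c.k4zO p) (c.last.R.N k ^ (κ + α)) k := hx
    show c.last.R.N k ^ α < (c.sys m k).q * k4zRow (c.k4zO p k d * ((c.sys m k).ch (c.lab k m d)).Di)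
    by_contra hcon
    refine k4z_lip_one c p hp k a2 m hm d ((not_lt.1 hcon).trans ?_) hx'
    exact (kb_L3_rpow_le_iff c.last.R k).2 (by linarith)

/-- **HUB S4Z** -/
theorem k4z_hub_fr : K4wHubFr := by
  intro S η d' umax mg e κ p E c f r h nar fF hS hη hpS hp hc hlen hF he hu huL hmg hx hκ
  exact ⟨_, _, k4z_fr_ok S η d' umax e κ p E c f r h nar fF hS hη hpS hp hc hlen hF he hu huL (by linarith) hκ⟩

end

end Claimed.Agent.R252
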